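import Mathlib

/-! # P076, block X: lossless bilinear theorem in 1+1 dimensions (PROP X) — definitions

Everything lives on the Fourier side: a solution is given by its profile `g : ℝ → ℂ`,
`v(x,t) = ∫ g ξ e(xξ - tξ²)`.  -/

set_option linter.all false

open MeasureTheory

namespace Vale.Agent.P076.X

/-- `e(x) = exp(2πix)` -/
noncomputable def ex (x : ℝ) : ℂ := Complex.exp (((2 * Real.pi * x : ℝ) : ℂ) * Complex.I)

/-- the free solution with profile `g` -/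
noncomputable def sol (g : ℝ → ℂ) (x t : ℝ) : ℂ := ∫ ξ, g ξ * ex (x * ξ - t * ξ ^ 2)

/-- admissible profiles -/
def Good (g : ℝ → ℂ) : Prop := Integrable g ∧ MemLp g 2

/-- mass -/
noncomputable def ms (g : ℝ → ℂ) : ℝ := ∫ ξ, ‖g ξ‖ ^ 2

/-- profile of the `L²`-normalised Gaussian packet of scale `s`, which at time `t` sits at
position `y` and has frequency `η` -/
noncomputable def pk (s y η t : ℝ) (ξ : ℝ) : ℂ :=
  (((2:ℝ) ^ (1/4 : ℝ) * Real.sqrt s * Real.exp (-Real.pi * s ^ 2 * (ξ - η) ^ 2) : ℝ) : ℂ)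
    * ex (t * ξ ^ 2 - y * (ξ - η))

/-- coefficient of `v(·,t)` at the packet `(y,η)` of scale `s` -/
noncomputable def cf (s y η t : ℝ) (g : ℝ → ℂ) : ℂ := ∫ ξ, g ξ * (starRingEnd ℂ) (pk s y η t ξ)

/-- the weight `W_r` (a probability density) -/
noncomputable def W (r x : ℝ) : ℝ := 2 / (Real.pi * r) * ((1 + x ^ 2 / r ^ 2) ^ 2)⁻¹

/-- local energy at scale `s` (weight `W_{Bs}`) -/
noncomputable def En (B s x t : ℝ) (g : ℝ → ℂ) : ℝ :=
  ∫ p : ℝ × ℝ, W (B * s) (x - p.1) * ‖cf s p.1 p.2 t g‖ ^ 2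

/-- Fourier transform in `x` of `v₁ conj v₂` at time `t` -/
noncomputable def uh (g₁ g₂ : ℝ → ℂ) (a t : ℝ) : ℂ :=
  ∫ ξ, g₁ (ξ + a) * (starRingEnd ℂ) (g₂ ξ) * ex (-(t * ((ξ + a) ^ 2 - ξ ^ 2)))

/-- multiplier of `W_r` -/
noncomputable def Wh (r a : ℝ) : ℝ := ∫ x, W r x * Real.cos (2 * Real.pi * a * x)

/-- multiplier of `H_s = W_{Bs} * ρ_s` -/
noncomputable def kh (B s a : ℝ) : ℝ := Wh (B * s) a * Real.exp (-(Real.pi * s ^ 2 * a ^ 2 / 2))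

/-- fourth power functional at scale `s` and time `t` -/
noncomputable def Fq (s t : ℝ) (g₁ g₂ : ℝ → ℂ) : ℝ :=
  s⁻¹ * ∫ p : ℝ × ℝ, ‖cf s p.1 p.2 t g₁‖ ^ 2 * ‖cf s p.1 p.2 t g₂‖ ^ 2

/-- phase space weight -/
noncomputable def WW (B s y η : ℝ) : ℝ :=
  ((1 + y ^ 2 / (B * s) ^ 2) ^ 2)⁻¹ * ((1 + s ^ 2 * η ^ 2 / B ^ 2) ^ 2)⁻¹

/-- the weight of the trivial high/low comparison -/
noncomputable def mu (s a : ℝ) : ℝ := min 1 ((s * |a|) ^ 3) * Real.exp (-(Real.pi * s ^ 2 * a ^ 2 / 2))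

end Vale.Agent.P076.X
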