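import Vale.Agent.P076.X.Defs

/-! # P076, block X: the list of statements (each is a `Prop`; owners in `p076_tasks`) -/

set_option linter.all false

open MeasureTheory

namespace Vale.Agent.P076.X

/-- X1: overlap of two packets -/
def StOv : Prop := ∀ s s' : ℝ, 0 < s → 0 < s' → ∀ y η t₀ y' η' t : ℝ,
  ‖cf s' y' η' t (pk s y η t₀)‖ ≤ Real.sqrt (2 * s * s' / (s ^ 2 + s' ^ 2)) *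
    Real.exp (-(Real.pi * (s ^ 2 + s' ^ 2) / ((s ^ 2 + s' ^ 2) ^ 2 + 4 * (t - t₀) ^ 2)) *
      ((y' - y - 2 * η * (t - t₀) - 2 * s' ^ 2 * (t - t₀) / (s ^ 2 + s' ^ 2) * (η' - η)) ^ 2
        + s ^ 2 * s' ^ 2 * (η' - η) ^ 2))

/-- X2: reproducing formula (Plancherel for the short time Fourier transform) -/
def StRep : Prop := ∀ s : ℝ, 0 < s → ∀ t : ℝ, ∀ g h : ℝ → ℂ, Good g → Good h →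
  Integrable (fun p : ℝ × ℝ => cf s p.1 p.2 t g * (starRingEnd ℂ) (cf s p.1 p.2 t h)) ∧
  ∫ p : ℝ × ℝ, cf s p.1 p.2 t g * (starRingEnd ℂ) (cf s p.1 p.2 t h)
    = ∫ ξ, g ξ * (starRingEnd ℂ) (h ξ)

/-- the outcome of pruning at scale `s`, centre `t₀`, threshold `b√s` (`C₀ C₁` are dummies) -/
structure Pruned (B b C₀ C₁ s t₀ : ℝ) (g g' : ℝ → ℂ) (n : ℕ) (c : ℕ → ℂ) (y η : ℕ → ℝ) : Prop where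
  good : Good g
  good' : Good g'
  eq : ∀ ξ, g ξ = g' ξ + ∑ i ∈ Finset.range n, c i * pk s (y i) (η i) t₀ ξ
  small : ∀ y' η', ‖cf s y' η' t₀ g'‖ ≤ b * Real.sqrt s
  big : ∀ i < n, b * Real.sqrt s < ‖c i‖
  mass : ms g' + ∑ i ∈ Finset.range n, ‖c i‖ ^ 2 = ms g
  lo : ∀ x t, |t - t₀| ≤ s ^ 2 →
    (1/2) * ∑ i ∈ Finset.range n, ‖c i‖ ^ 2 * W (B * s) (x - y i - 2 * η i * (t - t₀))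
      ≤ En B s x t g - En B s x t g'
  hi : ∀ x t, |t - t₀| ≤ s ^ 2 →
    En B s x t g - En B s x t g' ≤
      (3/2) * ∑ i ∈ Finset.range n, ‖c i‖ ^ 2 * W (B * s) (x - y i - 2 * η i * (t - t₀))

/-- X3: pruning -/
def StPrune : Prop := ∃ B : ℝ, 1 ≤ B ∧ ∀ C₀ : ℝ, 1 ≤ C₀ → ∃ C₁ : ℝ, 0 < C₁ ∧
  ∀ s t₀ b : ℝ, 0 < s → 0 < b → ∀ g : ℝ → ℂ, Good g →
    ∃ (g' : ℝ → ℂ) (n : ℕ) (c : ℕ → ℂ) (y η : ℕ → ℝ), Pruned B b C₀ C₁ s t₀ g g' n c y η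

/-- X4: transfer of amplitude bounds between scales and times -/
def StAmp : Prop := ∃ C : ℝ, 1 ≤ C ∧ ∀ s s' t₀ t M : ℝ, 0 < s → s / 8 ≤ s' → s' ≤ 8 * s →
  |t - t₀| ≤ 8 * s ^ 2 → ∀ g : ℝ → ℂ, Good g → (∀ y η, ‖cf s y η t₀ g‖ ≤ M) →
  ∀ y η, ‖cf s' y η t g‖ ≤ C * M

/-- X5a: identity for the quartic functional -/
def StFid : Prop := ∀ s : ℝ, 0 < s → ∀ t : ℝ, ∀ g₁ g₂ : ℝ → ℂ, Good g₁ → Good g₂ →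
  Integrable (fun p : ℝ × ℝ => ‖cf s p.1 p.2 t g₁‖ ^ 2 * ‖cf s p.1 p.2 t g₂‖ ^ 2) ∧
  Fq s t g₁ g₂ = ∫ a, Real.exp (-(Real.pi * s ^ 2 * a ^ 2)) *
    ∫ τ, s⁻¹ * Real.exp (-(Real.pi * τ ^ 2 / s ^ 2)) * ‖uh g₁ g₂ a (t + τ / (2 * a))‖ ^ 2

/-- X5b: lossless telescoping on a sharp time interval -/
def StTelA : Prop := ∃ c : ℝ, 0 < c ∧ ∀ s : ℝ, 0 < s → ∀ α ℓ : ℝ, s ^ 2 ≤ ℓ → ∀ g : ℝ → ℂ, Good g →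
  c * (∫ t in α..(α + ℓ), ∫ a, (Real.exp (-(Real.pi * s ^ 2 * a ^ 2 / 4)) -
      Real.exp (-(Real.pi * s ^ 2 * a ^ 2))) * min 1 (s * |a|) * ‖uh g g a t‖ ^ 2)
    ≤ ∫ t in α..(α + ℓ), (Fq (s / 2) t g g - Fq s t g g)

/-- X5c: bilinear high/low inequality on a sharp time interval -/
def StBHL : Prop := ∃ C : ℝ, 0 < C ∧ ∀ s : ℝ, 0 < s → ∀ α ℓ : ℝ, s ^ 2 ≤ ℓ → ∀ g₁ g₂ : ℝ → ℂ,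
  Good g₁ → Good g₂ →
  (∫ t in α..(α + ℓ), ∫ a, Real.exp (-(Real.pi * s ^ 2 * a ^ 2)) * min 1 (s * |a|) *
      ‖uh g₁ g₂ a t‖ ^ 2) ≤ C * ∫ t in α..(α + ℓ), Fq s t g₁ g₂

/-- the scale of level `l` (top level `0` has scale `2^m`) -/
noncomputable def sc (m l : ℕ) : ℝ := (2:ℝ) ^ m / 2 ^ l

/-- centre of the `k`-th time interval `[k s², (k+1) s²)` of level `l` -/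
noncomputable def ct (m l k : ℕ) : ℝ := ((k : ℝ) + 1 / 2) * (sc m l) ^ 2

/-- the pruning process -/
structure Proc (B b C₀ C₁ : ℝ) (m N : ℕ) (g : ℝ → ℂ) where
  gi : ℕ → ℕ → ℝ → ℂ
  go : ℕ → ℕ → ℝ → ℂ
  n : ℕ → ℕ → ℕ
  c : ℕ → ℕ → ℕ → ℂ
  y : ℕ → ℕ → ℕ → ℝ
  η : ℕ → ℕ → ℕ → ℝ
  top : gi 0 0 = g
  step : ∀ l < N, ∀ k < 4 ^ (l + 1), gi (l + 1) k = go l (k / 4)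
  prn : ∀ l ≤ N, ∀ k < 4 ^ l,
    Pruned B b C₀ C₁ (sc m l) (ct m l k) (gi l k) (go l k) (n l k) (c l k) (y l k) (η l k)

/-- X6: total variation of the process (`C₀` = the constant of `StAmp`) -/
def StSum : Prop := ∀ B : ℝ, 1 ≤ B → ∃ C₀ : ℝ, 1 ≤ C₀ ∧ ∀ C₁ : ℝ, 0 < C₁ → ∃ C : ℝ, 0 < C ∧
  ∀ (b : ℝ) (m N : ℕ) (g : ℝ → ℂ), 0 < b → ∀ Pr : Proc B b C₀ C₁ m N g,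
  ∑ l ∈ Finset.Icc 1 N, ∑ k ∈ Finset.range (4 ^ l),
    (∫ t in (k * (sc m l) ^ 2)..((k + 1) * (sc m l) ^ 2),
      ∫ a, (kh B (sc m l) a - kh B (2 * sc m l) a) * ‖uh (Pr.gi l k) (Pr.gi l k) a t‖ ^ 2)
    ≤ C * b ^ 2 * (sc m 0) ^ 2 * ms g

/-- smooth bump multipliers -/
def Bump (ψ : ℝ → ℝ) : Prop := ContDiff ℝ (⊤ : ℕ∞) ψ ∧ HasCompactSupport ψ

/-- X7: pointwise bound of a band-limited packet by the weight, with a time shift -/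
def StKer : Prop := ∀ B : ℝ, 1 ≤ B → ∀ ψ : ℝ → ℝ, Bump ψ → ∃ C : ℝ, 0 < C ∧
  ∀ s : ℝ, 1 ≤ s → ∀ y η t₀ t t' x : ℝ, |t - t₀| ≤ s ^ 2 → |t' - t| ≤ 4 * s →
  ‖sol (fun ξ => ψ ξ * pk s y η t₀ ξ) x t'‖ ≤ C * Real.sqrt s * W (B * s) (x - y - 2 * η * (t - t₀))

/-- X8: bilinear count at one scale -/
def StCount : Prop := ∀ B : ℝ, 1 ≤ B → ∀ ψ₁ ψ₂ : ℝ → ℝ, Bump ψ₁ → Bump ψ₂ →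
  ∀ δ : ℝ, 0 < δ → (∀ ξ ξ', ψ₁ ξ ≠ 0 → ψ₂ ξ' ≠ 0 → δ ≤ |ξ - ξ'|) → ∃ C : ℝ, 1 ≤ C ∧
  ∀ s : ℝ, 1 ≤ s → ∀ x₀ t₁ Y α : ℝ, 0 < Y → 0 < α → C * Y ≤ α ^ 2 → ∀ h : ℝ → ℂ, Good h →
  En B s x₀ t₁ h ≤ Y → ∀ E : Finset (ℝ × ℝ),
  (∀ z ∈ E, ∀ z' ∈ E, z ≠ z' → 1 ≤ |z.1 - z'.1| ∨ 1 ≤ |z.2 - z'.2|) →
  (∀ z ∈ E, |z.1 - x₀| ≤ 4 * s ∧ |z.2 - t₁| ≤ 4 * s ∧
    α ≤ ‖sol (fun ξ => ψ₁ ξ * h ξ) z.1 z.2‖ ∧ α ≤ ‖sol (fun ξ => ψ₂ ξ * h ξ) z.1 z.2‖) →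
  α ^ 4 * E.card ≤ C * s ^ 2 * Y ^ 2

/-- X9: Bernstein / local energy propagation -/
def StBern : Prop := ∀ B : ℝ, 1 ≤ B → ∀ ψ : ℝ → ℝ, Bump ψ → ∃ C : ℝ, 0 < C ∧
  ∀ s : ℝ, 1 ≤ s → ∀ x₀ t₁ x t : ℝ, |x - x₀| ≤ 4 * s → |t - t₁| ≤ 4 * s → ∀ h : ℝ → ℂ, Good h →
  ‖sol (fun ξ => ψ ξ * h ξ) x t‖ ^ 2 ≤ C * s * En B s x₀ t₁ h ∧
  En B s x t (fun ξ => ψ ξ * h ξ) ≤ C * En B s x₀ t₁ h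

/-- X10: local energy through the Fourier transform of `|v|²` -/
def StEnF : Prop := ∀ B s : ℝ, 0 < B → 0 < s → ∀ g : ℝ → ℂ, Good g → ∀ x t : ℝ,
  Integrable (fun a => (kh B s a : ℂ) * uh g g a t) ∧
  (En B s x t g : ℂ) = ∫ a, (kh B s a : ℂ) * uh g g a t * ex (x * a)

/-- X13: the local energy is bounded by the plain weighted mass -/
def StEnW : Prop := ∀ B : ℝ, 1 ≤ B → ∃ C : ℝ, 0 < C ∧ ∀ s : ℝ, 0 < s → ∀ g : ℝ → ℂ, Good g → ∀ x t : ℝ,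
  Integrable (fun y => W s (x - y) * ‖sol g y t‖ ^ 2) ∧
  En B s x t g ≤ C * ∫ y, W s (x - y) * ‖sol g y t‖ ^ 2

/-- X11: facts on the multiplier -/
def StKh : Prop := ∀ B : ℝ, 1 ≤ B → (∀ s a : ℝ, 0 < s → 0 ≤ kh B s a ∧ kh B s a ≤ 1) ∧
  (∀ s s' a : ℝ, 0 < s → s ≤ s' → kh B s' a ≤ kh B s a) ∧
  (∃ C : ℝ, 0 < C ∧ ∀ s a : ℝ, 0 < s → kh B s a - kh B (2 * s) a ≤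
    C * min 1 (s ^ 2 * a ^ 2) * Real.exp (-(Real.pi * s ^ 2 * a ^ 2 / 2))) ∧
  (∀ s : ℝ, 0 < s → ∀ A A' : Set ℝ, MeasurableSet A → MeasurableSet A' → A ⊆ A' → volume A' < ⊤ →
    (∫ a, kh B s a * ‖∫ x in A', ex (-(x * a))‖ ^ 2) - (∫ a, kh B s a * ‖∫ x in A, ex (-(x * a))‖ ^ 2)
      ≤ 2 * (volume (A' \ A)).toReal ∧
    0 ≤ (∫ a, kh B s a * ‖∫ x in A, ex (-(x * a))‖ ^ 2) ∧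
    (∫ a, kh B s a * ‖∫ x in A, ex (-(x * a))‖ ^ 2) ≤ (volume A).toReal)

/-- X12: maximal inequality at a fixed time (`k i` decreasing multipliers, `A i` increasing sets) -/
def StMax : Prop := ∀ B : ℝ, 1 ≤ B → ∀ (N : ℕ) (s : ℕ → ℝ), (∀ i, 0 < s i) → (∀ i, s i ≤ s (i + 1)) →
  ∀ A : ℕ → Set ℝ, (∀ i, MeasurableSet (A i)) → (∀ i, A i ⊆ A (i + 1)) → volume (A N) < ⊤ →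
  ∀ U : ℕ → ℝ → ℂ, (∀ i, Measurable (U i)) →
  (∀ i, Integrable (fun a => (kh B (s i) a - kh B (s (i + 1)) a) * ‖U i a‖ ^ 2)) →
  (∀ i, Integrable (fun a => ((kh B (s i) a - kh B (s (i + 1)) a : ℝ) : ℂ) * U i a)) →
  ∀ lam : ℝ, 0 < lam →
  ∑ i ∈ Finset.range (N + 1), (∫ x in A i,
      (∫ a, ((kh B (s i) a - kh B (s (i + 1)) a : ℝ) : ℂ) * U i a * ex (x * a)).re)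
    ≤ lam / 4 * (volume (A N)).toReal + 2 / lam *
      ∑ i ∈ Finset.range (N + 1), ∫ a, (kh B (s i) a - kh B (s (i + 1)) a) * ‖U i a‖ ^ 2

/-- PROP X: the lossless bilinear theorem in 1+1 dimensions -/
def StX : Prop := ∀ ψ₁ ψ₂ : ℝ → ℝ, Bump ψ₁ → Bump ψ₂ →
  ∀ δ : ℝ, 0 < δ → (∀ ξ ξ', ψ₁ ξ ≠ 0 → ψ₂ ξ' ≠ 0 → δ ≤ |ξ - ξ'|) →
  ∃ C : ℝ, 0 < C ∧ ∀ (m : ℕ) (g : ℝ → ℂ), Measurable g → (∃ M, ∀ ξ, ‖g ξ‖ ≤ M) →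
  (∀ ξ, g ξ ≠ 0 → |ξ| ≤ 1) → ∀ Y α : ℝ, 0 < Y → 0 < α → ∀ E : Finset (ℝ × ℝ),
  (∀ z ∈ E, ∀ z' ∈ E, z ≠ z' → 1 ≤ |z.1 - z'.1| ∨ 1 ≤ |z.2 - z'.2|) →
  (∀ z ∈ E, 0 ≤ z.2 ∧ z.2 < (4:ℝ) ^ m ∧
    α ≤ ‖sol (fun ξ => ψ₁ ξ * g ξ) z.1 z.2‖ ∧ α ≤ ‖sol (fun ξ => ψ₂ ξ * g ξ) z.1 z.2‖ ∧
    ∫ x, W ((2:ℝ) ^ m) (z.1 - x) * ‖sol g x z.2‖ ^ 2 ≤ Y) →
  α ^ 2 * E.card ≤ C * (Y / α ^ 2) ^ 2 * (4:ℝ) ^ m * ms g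

/-- two-profile version of StCount (819) -/
def StCount2 : Prop := ∀ B : ℝ, 1 ≤ B → ∀ ψ₁ ψ₂ : ℝ → ℝ, Bump ψ₁ → Bump ψ₂ →
  ∀ δ : ℝ, 0 < δ → (∀ ξ ξ', ψ₁ ξ ≠ 0 → ψ₂ ξ' ≠ 0 → δ ≤ |ξ - ξ'|) → ∃ C : ℝ, 1 ≤ C ∧
  ∀ s : ℝ, 1 ≤ s → ∀ x₀ t₁ Y₁ Y₂ α : ℝ, 0 < Y₁ → 0 < Y₂ → 0 < α → C * Y₁ ≤ α ^ 2 → C * Y₂ ≤ α ^ 2 →
  ∀ h₁ h₂ : ℝ → ℂ, Good h₁ → Good h₂ →
  En B s x₀ t₁ h₁ ≤ Y₁ → En B s x₀ t₁ h₂ ≤ Y₂ → ∀ E : Finset (ℝ × ℝ),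
  (∀ z ∈ E, ∀ z' ∈ E, z ≠ z' → 1 ≤ |z.1 - z'.1| ∨ 1 ≤ |z.2 - z'.2|) →
  (∀ z ∈ E, |z.1 - x₀| ≤ 4 * s ∧ |z.2 - t₁| ≤ 4 * s ∧
    α ≤ ‖sol (fun ξ => ψ₁ ξ * h₁ ξ) z.1 z.2‖ ∧ α ≤ ‖sol (fun ξ => ψ₂ ξ * h₂ ξ) z.1 z.2‖) →
  α ^ 4 * E.card ≤ C * s ^ 2 * (Y₁ * Y₂)

/-- PROP X, two-profile version (819): the lossless bilinear theorem in 1+1 dimensions -/
def StX2 : Prop := ∀ ψ₁ ψ₂ : ℝ → ℝ, Bump ψ₁ → Bump ψ₂ →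
  ∀ δ : ℝ, 0 < δ → (∀ ξ ξ', ψ₁ ξ ≠ 0 → ψ₂ ξ' ≠ 0 → δ ≤ |ξ - ξ'|) →
  ∃ C : ℝ, 1 ≤ C ∧ ∀ (m : ℕ) (g₁ g₂ : ℝ → ℂ), Measurable g₁ → Measurable g₂ →
  (∃ M, ∀ ξ, ‖g₁ ξ‖ ≤ M) → (∃ M, ∀ ξ, ‖g₂ ξ‖ ≤ M) →
  (∀ ξ, g₁ ξ ≠ 0 → |ξ| ≤ 1) → (∀ ξ, g₂ ξ ≠ 0 → |ξ| ≤ 1) →
  ∀ Y₁ Y₂ α : ℝ, 0 < Y₁ → 0 < Y₂ → 0 < α → C * Y₁ ≤ α ^ 2 → C * Y₂ ≤ α ^ 2 →
  ∀ E : Finset (ℝ × ℝ),
  (∀ z ∈ E, ∀ z' ∈ E, z ≠ z' → 1 ≤ |z.1 - z'.1| ∨ 1 ≤ |z.2 - z'.2|) →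
  (∀ z ∈ E, 0 ≤ z.2 ∧ z.2 < (4:ℝ) ^ m ∧
    α ≤ ‖sol (fun ξ => ψ₁ ξ * g₁ ξ) z.1 z.2‖ ∧ α ≤ ‖sol (fun ξ => ψ₂ ξ * g₂ ξ) z.1 z.2‖ ∧
    ∫ x, W ((2:ℝ) ^ m) (z.1 - x) * ‖sol g₁ x z.2‖ ^ 2 ≤ Y₁ ∧
    ∫ x, W ((2:ℝ) ^ m) (z.1 - x) * ‖sol g₂ x z.2‖ ^ 2 ≤ Y₂) →
  α ^ 2 * E.card ≤ C * (Y₁ * Y₂ / α ^ 4) * (4:ℝ) ^ m * (ms g₁ + ms g₂)

end Vale.Agent.P076.X
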