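import Vale.Agent.P076.X.Rep

/-! # P076, block X: Gaussian integrals in phase space, transfer of amplitude bounds (StAmp) -/

set_option linter.all false

open MeasureTheory Complex

namespace Vale.Agent.P076.X

/-- a sheared two dimensional Gaussian -/
theorem gauss2 (κ σ a β e : ℝ) (hκ : 0 < κ) (hσ : 0 < σ) :
    Integrable (fun p : ℝ × ℝ =>
      Real.exp (-κ * ((p.1 - a - β * (p.2 - e)) ^ 2 + σ ^ 2 * (p.2 - e) ^ 2))) ∧
    ∫ p : ℝ × ℝ, Real.exp (-κ * ((p.1 - a - β * (p.2 - e)) ^ 2 + σ ^ 2 * (p.2 - e) ^ 2))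
      = Real.pi / (κ * σ) := by
  have hsplit : ∀ x η : ℝ, Real.exp (-κ * ((x - a - β * (η - e)) ^ 2 + σ ^ 2 * (η - e) ^ 2))
      = Real.exp (-κ * (x - (a + β * (η - e))) ^ 2) * Real.exp (-(κ * σ ^ 2) * (η - e) ^ 2) := by
    intro x η
    rw [← Real.exp_add]; congr 1; ring
  have hin : ∀ η : ℝ, Integrable (fun x : ℝ =>
      Real.exp (-κ * ((x - a - β * (η - e)) ^ 2 + σ ^ 2 * (η - e) ^ 2))) := by
    intro η
    simp_rw [hsplit]
    exact ((integrable_exp_neg_mul_sq hκ).comp_sub_right _).mul_const _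
  have hval : ∀ η : ℝ, ∫ x : ℝ, Real.exp (-κ * ((x - a - β * (η - e)) ^ 2 + σ ^ 2 * (η - e) ^ 2))
      = Real.sqrt (Real.pi / κ) * Real.exp (-(κ * σ ^ 2) * (η - e) ^ 2) := by
    intro η
    simp_rw [hsplit]
    rw [integral_mul_const]
    congr 1
    rw [← integral_gaussian κ]
    exact integral_sub_right_eq_self (fun x : ℝ => Real.exp (-κ * x ^ 2)) (a + β * (η - e))
  have hI : Integrable (fun p : ℝ × ℝ =>
      Real.exp (-κ * ((p.1 - a - β * (p.2 - e)) ^ 2 + σ ^ 2 * (p.2 - e) ^ 2))) := by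
    rw [Measure.volume_eq_prod, integrable_prod_iff']
    · refine ⟨Filter.Eventually.of_forall fun η => hin η, ?_⟩
      simp only [Real.norm_eq_abs, Real.abs_exp]
      simp_rw [hval]
      exact ((integrable_exp_neg_mul_sq (b := κ * σ ^ 2) (by positivity)).comp_sub_right e).const_mul _
    · have : Continuous (fun p : ℝ × ℝ =>
        Real.exp (-κ * ((p.1 - a - β * (p.2 - e)) ^ 2 + σ ^ 2 * (p.2 - e) ^ 2))) := by fun_prop
      exact this.aestronglyMeasurable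
  refine ⟨hI, ?_⟩
  rw [Measure.volume_eq_prod, integral_prod_symm _ (by rwa [← Measure.volume_eq_prod])]
  simp only
  simp_rw [hval]
  rw [integral_const_mul]
  have h : ∫ η : ℝ, Real.exp (-(κ * σ ^ 2) * (η - e) ^ 2) = Real.sqrt (Real.pi / (κ * σ ^ 2)) := by
    rw [← integral_gaussian (κ * σ ^ 2)]
    exact integral_sub_right_eq_self (fun x : ℝ => Real.exp (-(κ * σ ^ 2) * x ^ 2)) e
  rw [h, ← Real.sqrt_mul (by positivity)]
  have : Real.pi / κ * (Real.pi / (κ * σ ^ 2)) = (Real.pi / (κ * σ)) ^ 2 := by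
    field_simp
  rw [this, Real.sqrt_sq (by positivity)]

theorem sqrt_ratio_le (s s' : ℝ) (hs : 0 < s) (hs' : 0 < s') :
    Real.sqrt (2 * s * s' / (s ^ 2 + s' ^ 2)) ≤ 1 := by
  rw [Real.sqrt_le_one, div_le_one (by positivity)]
  nlinarith [sq_nonneg (s - s')]

/-- the overlap is integrable on phase space -/
theorem int_norm_cf_pk (s s' : ℝ) (hs : 0 < s) (hs' : 0 < s') (y η t₀ t : ℝ) :
    Integrable (fun p : ℝ × ℝ => ‖cf s' p.1 p.2 t (pk s y η t₀)‖) ∧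
    ∫ p : ℝ × ℝ, ‖cf s' p.1 p.2 t (pk s y η t₀)‖ ≤
      ((s ^ 2 + s' ^ 2) ^ 2 + 4 * (t - t₀) ^ 2) / ((s ^ 2 + s' ^ 2) * (s * s')) := by
  set P := s ^ 2 + s' ^ 2 with hPdef
  set τ := t - t₀ with hτ
  have hP : 0 < P := by positivity
  have hD : 0 < P ^ 2 + 4 * τ ^ 2 := by positivity
  have hg := gauss2 (Real.pi * P / (P ^ 2 + 4 * τ ^ 2)) (s * s') (y + 2 * η * τ) (2 * s' ^ 2 * τ / P) η
    (by have := Real.pi_pos; positivity) (by positivity)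
  have hb : ∀ p : ℝ × ℝ, ‖cf s' p.1 p.2 t (pk s y η t₀)‖ ≤
      Real.exp (-(Real.pi * P / (P ^ 2 + 4 * τ ^ 2)) * ((p.1 - (y + 2 * η * τ) - 2 * s' ^ 2 * τ / P * (p.2 - η)) ^ 2
        + (s * s') ^ 2 * (p.2 - η) ^ 2)) := by
    intro p
    refine (norm_cf_pk s s' hs hs' y η t₀ p.1 p.2 t).trans ?_
    have h1 := sqrt_ratio_le s s' hs hs'
    have h2 : Real.exp (-(Real.pi * P / (P ^ 2 + 4 * τ ^ 2)) *
      ((p.1 - y - 2 * η * τ - 2 * s' ^ 2 * τ / P * (p.2 - η)) ^ 2 + s ^ 2 * s' ^ 2 * (p.2 - η) ^ 2))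
      = Real.exp (-(Real.pi * P / (P ^ 2 + 4 * τ ^ 2)) * ((p.1 - (y + 2 * η * τ) - 2 * s' ^ 2 * τ / P * (p.2 - η)) ^ 2
        + (s * s') ^ 2 * (p.2 - η) ^ 2)) := by
      congr 1; ring
    rw [h2]
    exact mul_le_of_le_one_left (Real.exp_nonneg _) h1
  have hI : Integrable (fun p : ℝ × ℝ => ‖cf s' p.1 p.2 t (pk s y η t₀)‖) :=
    hg.1.mono' (continuous_cf (integrable_pk s y η t₀ hs) s' t hs').norm.aestronglyMeasurable
      (Filter.Eventually.of_forall fun p => by rw [norm_norm]; exact hb p)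
  refine ⟨hI, ?_⟩
  calc _ ≤ ∫ p : ℝ × ℝ, Real.exp (-(Real.pi * P / (P ^ 2 + 4 * τ ^ 2)) * ((p.1 - (y + 2 * η * τ) - 2 * s' ^ 2 * τ / P * (p.2 - η)) ^ 2
        + (s * s') ^ 2 * (p.2 - η) ^ 2)) := integral_mono hI hg.1 hb
    _ = Real.pi / (Real.pi * P / (P ^ 2 + 4 * τ ^ 2) * (s * s')) := hg.2
    _ = _ := by
      have hpi := Real.pi_pos
      field_simp

/-- transfer of amplitude bounds, explicit constant -/
theorem amp_transfer (s s' : ℝ) (hs : 0 < s) (hs' : 0 < s') (t₀ t M : ℝ) {g : ℝ → ℂ} (hg : Good g)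
    (hM : ∀ y η, ‖cf s y η t₀ g‖ ≤ M) (y η : ℝ) :
    ‖cf s' y η t g‖ ≤
      ((s' ^ 2 + s ^ 2) ^ 2 + 4 * (t₀ - t) ^ 2) / ((s' ^ 2 + s ^ 2) * (s' * s)) * M := by
  have h1 : cf s' y η t g = ∫ p : ℝ × ℝ, cf s p.1 p.2 t₀ g *
      (starRingEnd ℂ) (cf s p.1 p.2 t₀ (pk s' y η t)) := by
    rw [(stRep s hs t₀ g (pk s' y η t) hg (good_pk s' y η t hs')).2]
    rfl
  have hk := int_norm_cf_pk s' s hs' hs y η t t₀
  have hM0 : 0 ≤ M := (norm_nonneg _).trans (hM 0 0)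
  rw [h1]
  refine (norm_integral_le_integral_norm _).trans ?_
  calc _ ≤ ∫ p : ℝ × ℝ, M * ‖cf s p.1 p.2 t₀ (pk s' y η t)‖ := by
        refine integral_mono_of_nonneg (Filter.Eventually.of_forall fun _ => norm_nonneg _)
          (hk.1.const_mul M) (Filter.Eventually.of_forall fun p => ?_)
        simp only
        rw [norm_mul, RCLike.norm_conj]
        exact mul_le_mul_of_nonneg_right (hM _ _) (norm_nonneg _)
    _ = M * ∫ p : ℝ × ℝ, ‖cf s p.1 p.2 t₀ (pk s' y η t)‖ := integral_const_mul _ _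
    _ ≤ M * (((s' ^ 2 + s ^ 2) ^ 2 + 4 * (t₀ - t) ^ 2) / ((s' ^ 2 + s ^ 2) * (s' * s))) :=
        mul_le_mul_of_nonneg_left hk.2 hM0
    _ = _ := mul_comm _ _

theorem stAmp : StAmp := by
  refine ⟨2568, by norm_num, ?_⟩
  intro s s' t₀ t M hs h1 h2 h3 g hg hM y η
  have hs' : 0 < s' := by linarith [div_pos hs (by norm_num : (0:ℝ) < 8)]
  have hM0 : 0 ≤ M := (norm_nonneg _).trans (hM 0 0)
  refine (amp_transfer s s' hs hs' t₀ t M hg hM y η).trans ?_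
  refine mul_le_mul_of_nonneg_right ?_ hM0
  have hτ : (t₀ - t) ^ 2 ≤ 64 * s ^ 4 := by
    have h4 : |t₀ - t| ≤ 8 * s ^ 2 := by rwa [abs_sub_comm]
    have := sq_le_sq' (by linarith [neg_abs_le (t₀ - t), le_abs_self (t₀ - t)]) ((le_abs_self (t₀ - t)).trans h4)
    nlinarith
  rw [div_le_iff₀ (by positivity)]
  have hp1 : s' ^ 2 ≤ 64 * s ^ 2 := by nlinarith
  have hp2 : s ^ 2 ≤ 8 * (s' * s) := by nlinarith
  have hP1 : s ^ 2 ≤ s' ^ 2 + s ^ 2 := by nlinarith [sq_nonneg s']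
  have hP2 : s' ^ 2 + s ^ 2 ≤ 65 * s ^ 2 := by nlinarith
  set P := s' ^ 2 + s ^ 2 with hP
  have hPpos : 0 < P := by positivity
  -- P² + 256 s⁴ ≤ 65 s² P + 256 s² P = 321 s² P ≤ 321 · 8 s' s P
  have e1 : P ^ 2 ≤ 65 * s ^ 2 * P := by nlinarith
  have e2 : 4 * (t₀ - t) ^ 2 ≤ 256 * s ^ 2 * P := by nlinarith [sq_nonneg s, sq_nonneg (s^2)]
  have e3 : 321 * s ^ 2 * P ≤ 2568 * (P * (s' * s)) := by nlinarith
  linarith

end Vale.Agent.P076.X
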