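import Vale.Agent.P076.X.Ov
import Vale.Agent.P122.FI.Pl

/-! # P076, block X: Plancherel for the short time Fourier transform (StRep) -/

set_option linter.all false

open MeasureTheory Complex

namespace Vale.Agent.P076.X

theorem inner_real_eq (x ξ : ℝ) : (inner ℝ x ξ : ℝ) = x * ξ := by
  simp [mul_comm]

theorem ex_eq_cexp (x ξ : ℝ) : ex (x * ξ) = cexp (2 * Real.pi * I * ((inner ℝ x ξ : ℝ) : ℂ)) := by
  rw [inner_real_eq]
  unfold ex
  congr 1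
  push_cast
  ring

theorem planch_ex (G : ℝ → ℂ) (h1 : Integrable G) (h2 : MemLp G 2) :
    ∫⁻ x, ‖∫ ξ, G ξ * ex (x * ξ)‖ₑ ^ 2 = ∫⁻ ξ, ‖G ξ‖ₑ ^ 2 := by
  rw [← Vale.Agent.P122.FI.planch G h1 h2]
  simp_rw [ex_eq_cexp]

theorem cf_eq_ex (g : ℝ → ℂ) (s y η t : ℝ) :
    cf s y η t g = ex (-(y * η)) * ∫ ξ, (g ξ * ((pa s η ξ : ℂ) * ex (-(t * ξ ^ 2)))) * ex (y * ξ) := by
  unfold cf
  rw [← integral_const_mul]
  refine integral_congr_ae (Filter.Eventually.of_forall fun ξ => ?_)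
  simp only
  rw [conj_pk]
  have : y * (ξ - η) - t * ξ ^ 2 = -(y * η) + (-(t * ξ ^ 2) + y * ξ) := by ring
  rw [this, ex_add, ex_add]
  ring

theorem good_mul_pa {g : ℝ → ℂ} (hg : Good g) (s η t : ℝ) (hs : 0 < s) :
    Good (fun ξ => g ξ * ((pa s η ξ : ℂ) * ex (-(t * ξ ^ 2)))) := by
  have hc : Continuous (fun ξ : ℝ => (pa s η ξ : ℂ) * ex (-(t * ξ ^ 2))) := by
    have := continuous_ex
    unfold pa
    fun_prop
  have hb : ∀ ξ : ℝ, ‖(pa s η ξ : ℂ) * ex (-(t * ξ ^ 2))‖ ≤ (2:ℝ) ^ (1/4 : ℝ) * Real.sqrt s := by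
    intro ξ
    rw [norm_mul, norm_ex, mul_one, Complex.norm_real, Real.norm_of_nonneg (pa_nonneg _ _ _)]
    exact pa_le s η ξ hs
  refine ⟨hg.1.mul_bdd (c := (2:ℝ) ^ (1/4 : ℝ) * Real.sqrt s) hc.aestronglyMeasurable
    (Filter.Eventually.of_forall hb), ?_⟩
  refine MemLp.of_le_mul (c := (2:ℝ) ^ (1/4 : ℝ) * Real.sqrt s) hg.2
    (hg.1.aestronglyMeasurable.mul hc.aestronglyMeasurable) (Filter.Eventually.of_forall fun ξ => ?_)
  rw [norm_mul, mul_comm]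
  exact mul_le_mul_of_nonneg_right (hb ξ) (norm_nonneg _)

theorem lint_cf_fix {g : ℝ → ℂ} (hg : Good g) (s η t : ℝ) (hs : 0 < s) :
    ∫⁻ y, ‖cf s y η t g‖ₑ ^ 2 = ∫⁻ ξ, ‖g ξ‖ₑ ^ 2 * ENNReal.ofReal (pa s η ξ ^ 2) := by
  have hG := good_mul_pa hg s η t hs
  have h := planch_ex _ hG.1 hG.2
  have h1 : ∀ y : ℝ, ‖cf s y η t g‖ₑ ^ 2
      = ‖∫ ξ, (g ξ * ((pa s η ξ : ℂ) * ex (-(t * ξ ^ 2)))) * ex (y * ξ)‖ₑ ^ 2 := by
    intro y
    rw [cf_eq_ex, enorm_mul]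
    have : ‖ex (-(y * η))‖ₑ = 1 := by
      rw [← ofReal_norm, norm_ex, ENNReal.ofReal_one]
    rw [this, one_mul]
  simp_rw [h1]
  rw [h]
  refine lintegral_congr fun ξ => ?_
  rw [enorm_mul, enorm_mul]
  have : ‖ex (-(t * ξ ^ 2))‖ₑ = 1 := by
    rw [← ofReal_norm, norm_ex, ENNReal.ofReal_one]
  rw [this, mul_one, mul_pow]
  congr 1
  rw [← ofReal_norm, Complex.norm_real, Real.norm_of_nonneg (pa_nonneg _ _ _),
    ENNReal.ofReal_pow (pa_nonneg _ _ _)]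

theorem lint_pa_sq (s ξ : ℝ) (hs : 0 < s) : ∫⁻ η, ENNReal.ofReal (pa s η ξ ^ 2) = 1 := by
  rw [← ofReal_integral_eq_lintegral_ofReal, integral_pa_sq s ξ hs, ENNReal.ofReal_one]
  · by_contra h
    have := integral_undef h
    rw [integral_pa_sq s ξ hs] at this
    norm_num at this
  · exact Filter.Eventually.of_forall fun _ => by positivity

theorem lint_cf {g : ℝ → ℂ} (hg : Good g) (s t : ℝ) (hs : 0 < s) :
    ∫⁻ p : ℝ × ℝ, ‖cf s p.1 p.2 t g‖ₑ ^ 2 = ∫⁻ ξ, ‖g ξ‖ₑ ^ 2 := by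
  have hc := continuous_cf hg.1 s t hs
  rw [Measure.volume_eq_prod, lintegral_prod_symm]
  · simp only
    simp_rw [fun η => lint_cf_fix hg s η t hs]
    rw [lintegral_lintegral_swap]
    · calc _ = ∫⁻ ξ, ‖g ξ‖ₑ ^ 2 * ∫⁻ η, ENNReal.ofReal (pa s η ξ ^ 2) := by
            refine lintegral_congr fun ξ => ?_
            rw [lintegral_const_mul]
            have : Continuous fun η : ℝ => pa s η ξ ^ 2 := by unfold pa; fun_prop
            exact this.measurable.ennreal_ofReal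
        _ = _ := by
            refine lintegral_congr fun ξ => ?_
            rw [lint_pa_sq s ξ hs, mul_one]
    · have h1 : AEMeasurable (fun ξ : ℝ => ‖g ξ‖ₑ ^ 2) := hg.1.aestronglyMeasurable.enorm.pow_const 2
      have h2 : Continuous fun p : ℝ × ℝ => pa s p.1 p.2 ^ 2 := (continuous_pa s).pow 2
      exact AEMeasurable.mul (h1.comp_snd) h2.measurable.ennreal_ofReal.aemeasurable
  · exact (hc.measurable.enorm.pow_const 2).aemeasurable

theorem memLp_cf {g : ℝ → ℂ} (hg : Good g) (s t : ℝ) (hs : 0 < s) :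
    MemLp (fun p : ℝ × ℝ => cf s p.1 p.2 t g) 2 := by
  refine ⟨(continuous_cf hg.1 s t hs).aestronglyMeasurable, ?_⟩
  have h4 : eLpNorm (fun p : ℝ × ℝ => cf s p.1 p.2 t g) 2 volume ^ 2
      = ∫⁻ x : ℝ × ℝ, ‖cf s x.1 x.2 t g‖ₑ ^ 2 := by
    rw [eLpNorm_eq_lintegral_rpow_enorm_toReal (by norm_num) (by norm_num)]
    simp only [ENNReal.toReal_ofNat]
    rw [← ENNReal.rpow_natCast, ← ENNReal.rpow_mul]
    norm_num
  have h5 : eLpNorm g 2 volume ^ 2 = ∫⁻ x, ‖g x‖ₑ ^ 2 := by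
    rw [eLpNorm_eq_lintegral_rpow_enorm_toReal (by norm_num) (by norm_num)]
    simp only [ENNReal.toReal_ofNat]
    rw [← ENNReal.rpow_natCast, ← ENNReal.rpow_mul]
    norm_num
  rw [lint_cf hg s t hs, ← h5] at h4
  have h6 : eLpNorm g 2 volume ^ 2 < ⊤ := ENNReal.pow_lt_top hg.2.2
  rw [← h4] at h6
  by_contra h
  rw [not_lt, top_le_iff] at h
  rw [h] at h6
  simp at h6

theorem lint_sq_eq (g : ℝ → ℂ) (hg : Good g) : ∫⁻ ξ, ‖g ξ‖ₑ ^ 2 = ENNReal.ofReal (ms g) := by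
  unfold ms
  rw [ofReal_integral_eq_lintegral_ofReal hg.int_sq (Filter.Eventually.of_forall fun _ => by positivity)]
  refine lintegral_congr fun ξ => ?_
  rw [← ofReal_norm, ENNReal.ofReal_pow (norm_nonneg _)]

theorem int_cf_sq {g : ℝ → ℂ} (hg : Good g) (s t : ℝ) (hs : 0 < s) :
    Integrable (fun p : ℝ × ℝ => ‖cf s p.1 p.2 t g‖ ^ 2) :=
  (memLp_two_iff_integrable_sq_norm (continuous_cf hg.1 s t hs).aestronglyMeasurable).1
    (memLp_cf hg s t hs)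

theorem integral_cf_sq {g : ℝ → ℂ} (hg : Good g) (s t : ℝ) (hs : 0 < s) :
    ∫ p : ℝ × ℝ, ‖cf s p.1 p.2 t g‖ ^ 2 = ms g := by
  have h1 : ∫⁻ p : ℝ × ℝ, ENNReal.ofReal (‖cf s p.1 p.2 t g‖ ^ 2) = ENNReal.ofReal (ms g) := by
    rw [← lint_sq_eq g hg, ← lint_cf hg s t hs]
    refine lintegral_congr fun ξ => ?_
    rw [← ofReal_norm, ENNReal.ofReal_pow (norm_nonneg _)]
  rw [← ofReal_integral_eq_lintegral_ofReal (int_cf_sq hg s t hs)
    (Filter.Eventually.of_forall fun _ => by positivity)] at h1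
  have h2 := congrArg ENNReal.toReal h1
  rwa [ENNReal.toReal_ofReal (integral_nonneg fun _ => by positivity),
    ENNReal.toReal_ofReal (Good.ms_nonneg g)] at h2

theorem int_cf_mul {g h : ℝ → ℂ} (hg : Good g) (hh : Good h) (s s' t t' : ℝ) (hs : 0 < s) (hs' : 0 < s') :
    Integrable (fun p : ℝ × ℝ => cf s p.1 p.2 t g * (starRingEnd ℂ) (cf s' p.1 p.2 t' h)) := by
  have h1 : MemLp (fun p : ℝ × ℝ => (starRingEnd ℂ) (cf s' p.1 p.2 t' h)) 2 := by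
    refine ⟨(Complex.continuous_conj.comp (continuous_cf hh.1 s' t' hs')).aestronglyMeasurable, ?_⟩
    have : eLpNorm (fun p : ℝ × ℝ => (starRingEnd ℂ) (cf s' p.1 p.2 t' h)) 2 volume
        = eLpNorm (fun p : ℝ × ℝ => cf s' p.1 p.2 t' h) 2 volume :=
      eLpNorm_congr_norm_ae (Filter.Eventually.of_forall fun ξ => by simp)
    rw [this]; exact (memLp_cf hh s' t' hs').2
  exact memLp_one_iff_integrable.1 (h1.mul (memLp_cf hg s t hs) (p := 2) (q := 2) (r := 1))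

/-- polarisation -/
theorem polar (z w : ℂ) : z * (starRingEnd ℂ) w =
    ((((‖z + w‖ ^ 2 - ‖z - w‖ ^ 2) / 4 : ℝ) : ℂ)) + (((‖z + I * w‖ ^ 2 - ‖z - I * w‖ ^ 2) / 4 : ℝ) : ℂ) * I := by
  apply Complex.ext
  · simp [Complex.sq_norm, Complex.normSq_apply]
    ring
  · simp [Complex.sq_norm, Complex.normSq_apply]
    ring

theorem stRep : StRep := by
  intro s hs t g h hg hh
  refine ⟨int_cf_mul hg hh s s t t hs hs, ?_⟩
  have hI : ∀ c : ℂ, Good (fun ξ => g ξ + c * h ξ) := fun c => hg.add (hh.smul c)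
  have hcf : ∀ (c : ℂ) (p : ℝ × ℝ), cf s p.1 p.2 t (fun ξ => g ξ + c * h ξ)
      = cf s p.1 p.2 t g + c * cf s p.1 p.2 t h := by
    intro c p
    rw [cf_add hg (hh.smul c) s p.1 p.2 t hs, cf_smul]
  have key : ∀ c : ℂ, ∫ p : ℝ × ℝ, ‖cf s p.1 p.2 t g + c * cf s p.1 p.2 t h‖ ^ 2
      = ∫ ξ, ‖g ξ + c * h ξ‖ ^ 2 := by
    intro c
    have := integral_cf_sq (hI c) s t hs
    simp_rw [hcf c] at this
    exact this
  have ii : ∀ c : ℂ, Integrable (fun p : ℝ × ℝ => ‖cf s p.1 p.2 t g + c * cf s p.1 p.2 t h‖ ^ 2) := by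
    intro c
    have := int_cf_sq (hI c) s t hs
    simp_rw [hcf c] at this
    exact this
  have jj : ∀ c : ℂ, Integrable (fun ξ : ℝ => ‖g ξ + c * h ξ‖ ^ 2) := fun c => (hI c).int_sq
  have h1 := key 1
  have h2 := key (-1)
  have h3 := key I
  have h4 := key (-I)
  have i1 := ii 1
  have i2 := ii (-1)
  have i3 := ii I
  have i4 := ii (-I)
  have j1 := jj 1
  have j2 := jj (-1)
  have j3 := jj I
  have j4 := jj (-I)
  simp only [one_mul, neg_mul, ← sub_eq_add_neg] at h1 h2 h3 h4 i1 i2 i3 i4 j1 j2 j3 j4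
  simp_rw [polar]
  rw [integral_add, integral_add, integral_mul_const, integral_mul_const]
  · have e1 : ∫ p : ℝ × ℝ, ((((‖cf s p.1 p.2 t g + cf s p.1 p.2 t h‖ ^ 2
        - ‖cf s p.1 p.2 t g - cf s p.1 p.2 t h‖ ^ 2) / 4 : ℝ)) : ℂ)
        = ((∫ ξ, ((‖g ξ + h ξ‖ ^ 2 - ‖g ξ - h ξ‖ ^ 2) / 4) : ℝ) : ℂ) := by
      rw [integral_complex_ofReal, integral_div, integral_div, integral_sub i1 i2, integral_sub j1 j2, h1, h2]
    have e2 : ∫ p : ℝ × ℝ, ((((‖cf s p.1 p.2 t g + I * cf s p.1 p.2 t h‖ ^ 2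
        - ‖cf s p.1 p.2 t g - I * cf s p.1 p.2 t h‖ ^ 2) / 4 : ℝ)) : ℂ)
        = ((∫ ξ, ((‖g ξ + I * h ξ‖ ^ 2 - ‖g ξ - I * h ξ‖ ^ 2) / 4) : ℝ) : ℂ) := by
      rw [integral_complex_ofReal, integral_div, integral_div, integral_sub i3 i4, integral_sub j3 j4, h3, h4]
    rw [e1, e2, ← integral_complex_ofReal, ← integral_complex_ofReal]
  · exact ((j1.sub j2).div_const 4).ofReal
  · exact (((j3.sub j4).div_const 4).ofReal).mul_const I
  · exact ((i1.sub i2).div_const 4).ofReal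
  · exact (((i3.sub i4).div_const 4).ofReal).mul_const I

end Vale.Agent.P076.X
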