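import Vale.Agent.P076.X.Spec

/-! # P076, block X: two-profile version of PROP X and the Poisson form of the maximal inequality

`StMaxP`, `StSumP` replace `StMax`, `StSum` (no `StBHL`, no `Pruned.ovl` needed);
`StCount2`, `StX2` are in `X/Spec.lean`. -/

set_option linter.all false

open MeasureTheory

namespace Vale.Agent.P076.X

/-- X11': the weight `mu` against the weight of `StTelA` and against the multiplier differences;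
Poisson quadratic forms of indicators -/
def StPoi : Prop :=
  (∃ C : ℝ, 0 < C ∧ ∀ s a : ℝ, 0 < s → mu s a ≤ C * ((Real.exp (-(Real.pi * s ^ 2 * a ^ 2 / 4)) -
      Real.exp (-(Real.pi * s ^ 2 * a ^ 2))) * min 1 (s * |a|))) ∧
  (∀ B : ℝ, 1 ≤ B → ∃ C : ℝ, 0 < C ∧ ∀ s a : ℝ, 0 < s →
    (kh B s a - kh B (2 * s) a) ^ 2 ≤ C * mu s a * (Real.exp (-(s * |a|)) - Real.exp (-(2 * s * |a|)))) ∧
  (∀ r : ℝ, 0 < r → ∀ A A' : Set ℝ, MeasurableSet A → MeasurableSet A' → A ⊆ A' → volume A' < ⊤ →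
    (∫ a, Real.exp (-(r * |a|)) * ‖∫ x in A', ex (-(x * a))‖ ^ 2)
      - (∫ a, Real.exp (-(r * |a|)) * ‖∫ x in A, ex (-(x * a))‖ ^ 2)
      ≤ 2 * (volume (A' \ A)).toReal ∧
    0 ≤ (∫ a, Real.exp (-(r * |a|)) * ‖∫ x in A, ex (-(x * a))‖ ^ 2) ∧
    (∫ a, Real.exp (-(r * |a|)) * ‖∫ x in A, ex (-(x * a))‖ ^ 2) ≤ (volume A).toReal)

/-- X12': maximal inequality at a fixed time, Poisson form (scales `s i = 2^i s 0`) -/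
def StMaxP : Prop := ∀ B : ℝ, 1 ≤ B → ∃ C : ℝ, 0 < C ∧
  ∀ (N : ℕ) (s : ℕ → ℝ), (∀ i, 0 < s i) → (∀ i, s (i + 1) = 2 * s i) →
  ∀ A : ℕ → Set ℝ, (∀ i, MeasurableSet (A i)) → (∀ i, A i ⊆ A (i + 1)) → volume (A N) < ⊤ →
  ∀ U : ℕ → ℝ → ℂ, (∀ i, Measurable (U i)) →
  (∀ i, Integrable (fun a => mu (s i) a * ‖U i a‖ ^ 2)) →
  (∀ i, Integrable (fun a => ((kh B (s i) a - kh B (2 * s i) a : ℝ) : ℂ) * U i a)) →
  ∀ lam : ℝ, 0 < lam →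
  ∑ i ∈ Finset.range (N + 1), (∫ x in A i,
      (∫ a, ((kh B (s i) a - kh B (2 * s i) a : ℝ) : ℂ) * U i a * ex (x * a)).re)
    ≤ lam / 4 * (volume (A N)).toReal + C / lam *
      ∑ i ∈ Finset.range (N + 1), ∫ a, mu (s i) a * ‖U i a‖ ^ 2

/-- X6': total variation of the process (`C₀` = the constant of `StAmp`) -/
def StSumP : Prop := ∃ C₀ : ℝ, 1 ≤ C₀ ∧ ∀ B C₁ : ℝ, 1 ≤ B → 0 < C₁ → ∃ C : ℝ, 0 < C ∧
  ∀ (b : ℝ) (m N : ℕ) (g : ℝ → ℂ), 0 < b → ∀ Pr : Proc B b C₀ C₁ m N g,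
  ∑ l ∈ Finset.Icc 1 N, ∑ k ∈ Finset.range (4 ^ l),
    (∫ t in (k * (sc m l) ^ 2)..((k + 1) * (sc m l) ^ 2),
      ∫ a, mu (sc m l) a * ‖uh (Pr.gi l k) (Pr.gi l k) a t‖ ^ 2)
    ≤ C * b ^ 2 * (sc m 0) ^ 2 * ms g

end Vale.Agent.P076.X
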