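import Vale.Agent.P076.X.Basic

/-! # P076, block X: overlap of two packets (StOv) -/

set_option linter.all false

open MeasureTheory Complex

namespace Vale.Agent.P076.X

theorem norm_integral_quad (P τ u v d : ℝ) (hP : 0 < P) (θ : ℝ) :
    ‖∫ x : ℝ, cexp ((-(Real.pi * P : ℝ) - (2 * Real.pi * τ : ℝ) * I) * x ^ 2
      + ((2 * Real.pi * u : ℝ) + (2 * Real.pi * v : ℝ) * I) * x + ((d : ℝ) + (θ : ℝ) * I))‖
    = (Real.sqrt (P ^ 2 + 4 * τ ^ 2))⁻¹ ^ (1/2 : ℝ) *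
      Real.exp (d + Real.pi * ((u ^ 2 - v ^ 2) * P + 4 * u * v * τ) / (P ^ 2 + 4 * τ ^ 2)) := by
  set b : ℂ := -(Real.pi * P : ℝ) - (2 * Real.pi * τ : ℝ) * I with hb
  have hbre : b.re = -(Real.pi * P) := by simp [hb]
  have hbim : b.im = -(2 * Real.pi * τ) := by simp [hb]
  have hpi := Real.pi_pos
  have hD : 0 < P ^ 2 + 4 * τ ^ 2 := by positivity
  rw [integral_cexp_quadratic (by rw [hbre]; nlinarith [mul_pos hpi hP])]
  rw [norm_mul, Complex.norm_exp]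
  have hnb : ‖b‖ = Real.pi * Real.sqrt (P ^ 2 + 4 * τ ^ 2) := by
    rw [Complex.norm_def, Complex.normSq_apply, hbre, hbim]
    have : -(Real.pi * P) * -(Real.pi * P) + -(2 * Real.pi * τ) * -(2 * Real.pi * τ)
        = Real.pi ^ 2 * (P ^ 2 + 4 * τ ^ 2) := by ring
    rw [this, Real.sqrt_mul (by positivity), Real.sqrt_sq hpi.le]
  congr 1
  · have h1 : ((1 / 2 : ℂ)) = (((1/2 : ℝ)) : ℂ) := by push_cast; rfl
    rw [h1, Complex.norm_cpow_real, norm_div, norm_neg, hnb, Complex.norm_real,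
      Real.norm_of_nonneg hpi.le]
    congr 1
    rw [div_mul_eq_div_div, div_self hpi.ne', one_div]
  · congr 1
    have hns : Complex.normSq b = Real.pi ^ 2 * (P ^ 2 + 4 * τ ^ 2) := by
      rw [Complex.normSq_apply, hbre, hbim]; ring
    set c : ℂ := ((2 * Real.pi * u : ℝ) : ℂ) + ((2 * Real.pi * v : ℝ) : ℂ) * I with hc
    have hcre : c.re = 2 * Real.pi * u := by simp [hc]
    have hcim : c.im = 2 * Real.pi * v := by simp [hc]
    have h4 : (c ^ 2 / (4 * b)) = (c * c * ((1/4 : ℝ) : ℂ)) * b⁻¹ := by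
      push_cast
      rw [pow_two, div_eq_mul_inv, mul_inv]
      ring
    have hdre : (((d : ℝ) : ℂ) + ((θ : ℝ) : ℂ) * I).re = d := by simp
    rw [Complex.sub_re, hdre, h4, Complex.mul_re, Complex.inv_re, Complex.inv_im, hns, hbre, hbim]
    have h5 : (c * c * ((1/4 : ℝ) : ℂ)).re = Real.pi ^ 2 * (u ^ 2 - v ^ 2) := by
      rw [Complex.re_mul_ofReal, Complex.mul_re, hcre, hcim]; ring
    have h6 : (c * c * ((1/4 : ℝ) : ℂ)).im = Real.pi ^ 2 * (2 * u * v) := by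
      rw [Complex.im_mul_ofReal, Complex.mul_im, hcre, hcim]; ring
    rw [h5, h6]
    have hDne := hD.ne'
    have hpine := hpi.ne'
    field_simp
    ring

theorem sqrt_inv_rpow_le (P τ : ℝ) (hP : 0 < P) :
    (Real.sqrt (P ^ 2 + 4 * τ ^ 2))⁻¹ ^ (1/2 : ℝ) ≤ (Real.sqrt P)⁻¹ := by
  rw [← Real.sqrt_eq_rpow, ← Real.sqrt_inv P]
  apply Real.sqrt_le_sqrt
  apply inv_anti₀ hP
  calc P = Real.sqrt (P ^ 2) := (Real.sqrt_sq hP.le).symm
    _ ≤ _ := Real.sqrt_le_sqrt (by nlinarith [sq_nonneg τ])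

theorem norm_cf_pk (s s' : ℝ) (hs : 0 < s) (hs' : 0 < s') (y η t₀ y' η' t : ℝ) :
    ‖cf s' y' η' t (pk s y η t₀)‖ ≤ Real.sqrt (2 * s * s' / (s ^ 2 + s' ^ 2)) *
    Real.exp (-(Real.pi * (s ^ 2 + s' ^ 2) / ((s ^ 2 + s' ^ 2) ^ 2 + 4 * (t - t₀) ^ 2)) *
      ((y' - y - 2 * η * (t - t₀) - 2 * s' ^ 2 * (t - t₀) / (s ^ 2 + s' ^ 2) * (η' - η)) ^ 2
        + s ^ 2 * s' ^ 2 * (η' - η) ^ 2)) := by
  set P := s ^ 2 + s' ^ 2 with hPdef
  set τ := t - t₀ with hτ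
  have hP : 0 < P := by positivity
  have hpi := Real.pi_pos
  have hD : 0 < P ^ 2 + 4 * τ ^ 2 := by positivity
  have hint : cf s' y' η' t (pk s y η t₀) =
      (((2:ℝ) ^ (1/4 : ℝ) * Real.sqrt s * ((2:ℝ) ^ (1/4 : ℝ) * Real.sqrt s') : ℝ) : ℂ) *
      ∫ x : ℝ, cexp ((-(Real.pi * P : ℝ) - (2 * Real.pi * τ : ℝ) * I) * x ^ 2
      + ((2 * Real.pi * (s ^ 2 * η + s' ^ 2 * η') : ℝ) + (2 * Real.pi * (y' - y) : ℝ) * I) * x
      + (((-Real.pi * s ^ 2 * η ^ 2 - Real.pi * s' ^ 2 * η' ^ 2) : ℝ)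
        + ((2 * Real.pi * (y * η - y' * η')) : ℝ) * I)) := by
    unfold cf
    rw [← integral_const_mul]
    refine integral_congr_ae (Filter.Eventually.of_forall fun ξ => ?_)
    simp only
    rw [conj_pk, pk_eq]
    unfold pa ex
    push_cast
    set K : ℂ := ((((2:ℝ) ^ (1 / 4 : ℝ)) : ℝ) : ℂ) with hK
    have e1 : ∀ A B E1 E2 E3 E4 : ℂ, (K * A * E1) * E2 * (K * B * E3 * E4)
        = (K * A * (K * B)) * (E1 * E2 * (E3 * E4)) := by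
      intro A B E1 E2 E3 E4; ring
    rw [e1, ← Complex.exp_add, ← Complex.exp_add, ← Complex.exp_add]
    congr 2
    rw [hPdef, hτ]
    push_cast
    ring
  rw [hint, norm_mul, norm_integral_quad P τ _ _ _ hP]
  rw [Complex.norm_real, Real.norm_of_nonneg (by positivity)]
  have hexp : (-Real.pi * s ^ 2 * η ^ 2 - Real.pi * s' ^ 2 * η' ^ 2) + Real.pi *
      (((s ^ 2 * η + s' ^ 2 * η') ^ 2 - (y' - y) ^ 2) * P + 4 * (s ^ 2 * η + s' ^ 2 * η') * (y' - y) * τ)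
        / (P ^ 2 + 4 * τ ^ 2)
      = -(Real.pi * P / (P ^ 2 + 4 * τ ^ 2)) * (y' - y - 2 * η * τ - 2 * s' ^ 2 * τ / P * (η' - η)) ^ 2
        - Real.pi * s ^ 2 * s' ^ 2 * (η' - η) ^ 2 / P := by
    have hPne := hP.ne'
    have hDne := hD.ne'
    field_simp
    rw [hPdef]
    ring
  rw [hexp]
  have h2 : (2:ℝ) ^ (1/4 : ℝ) * Real.sqrt s * ((2:ℝ) ^ (1/4 : ℝ) * Real.sqrt s') * (Real.sqrt P)⁻¹
      = Real.sqrt (2 * s * s' / P) := by
    rw [Real.sqrt_div (by positivity), Real.sqrt_mul (by positivity), Real.sqrt_mul (by norm_num),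
      ← two_rpow_sq]
    ring
  have h3 : -(Real.pi * P / (P ^ 2 + 4 * τ ^ 2)) * (y' - y - 2 * η * τ - 2 * s' ^ 2 * τ / P * (η' - η)) ^ 2
        - Real.pi * s ^ 2 * s' ^ 2 * (η' - η) ^ 2 / P ≤
      -(Real.pi * P / (P ^ 2 + 4 * τ ^ 2)) * ((y' - y - 2 * η * τ - 2 * s' ^ 2 * τ / P * (η' - η)) ^ 2
        + s ^ 2 * s' ^ 2 * (η' - η) ^ 2) := by
    have : Real.pi * P / (P ^ 2 + 4 * τ ^ 2) * (s ^ 2 * s' ^ 2 * (η' - η) ^ 2) ≤
        Real.pi * s ^ 2 * s' ^ 2 * (η' - η) ^ 2 / P := by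
      have h4 : Real.pi * P / (P ^ 2 + 4 * τ ^ 2) ≤ Real.pi / P := by
        rw [div_le_div_iff₀ hD hP]
        nlinarith [mul_nonneg hpi.le (sq_nonneg τ)]
      calc _ ≤ Real.pi / P * (s ^ 2 * s' ^ 2 * (η' - η) ^ 2) := by gcongr
        _ = _ := by ring
    linarith
  calc _ ≤ (2:ℝ) ^ (1/4 : ℝ) * Real.sqrt s * ((2:ℝ) ^ (1/4 : ℝ) * Real.sqrt s') * ((Real.sqrt P)⁻¹ *
        Real.exp (-(Real.pi * P / (P ^ 2 + 4 * τ ^ 2)) * ((y' - y - 2 * η * τ - 2 * s' ^ 2 * τ / P * (η' - η)) ^ 2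
        + s ^ 2 * s' ^ 2 * (η' - η) ^ 2))) := by
        gcongr
        exact sqrt_inv_rpow_le P τ hP
    _ = _ := by rw [← h2]; ring

theorem stOv : StOv := fun s s' hs hs' y η t₀ y' η' t => norm_cf_pk s s' hs hs' y η t₀ y' η' t

end Vale.Agent.P076.X
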