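import Vale.Agent.P076.X.Prune

/-! # P076, block X: greedy pruning (StPrune), the single step and the iteration -/

set_option linter.all false

open MeasureTheory Complex

namespace Vale.Agent.P076.X

theorem norm_sub_sq_c (a b : ℂ) : ‖a - b‖ ^ 2 = ‖a‖ ^ 2 - 2 * (a * (starRingEnd ℂ) b).re + ‖b‖ ^ 2 := by
  simp only [Complex.sq_norm, Complex.normSq_apply, Complex.sub_re, Complex.sub_im, Complex.mul_re,
    Complex.conj_re, Complex.conj_im]
  ring

theorem integral_three {α : Type*} [MeasurableSpace α] {μ : Measure α} {f₁ f₂ f₃ : α → ℝ}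
    (h₁ : Integrable f₁ μ) (h₂ : Integrable f₂ μ) (h₃ : Integrable f₃ μ) :
    ∫ x, (f₁ x - f₂ x + f₃ x) ∂μ = (∫ x, f₁ x ∂μ) - (∫ x, f₂ x ∂μ) + ∫ x, f₃ x ∂μ := by
  have h12 : Integrable (fun x => f₁ x - f₂ x) μ := h₁.sub h₂
  rw [integral_add h12 h₃, integral_sub h₁ h₂]

theorem integral_three' {α : Type*} [MeasurableSpace α] {μ : Measure α} {f₁ f₂ f₃ : α → ℝ}
    (h₁ : Integrable f₁ μ) (h₂ : Integrable f₂ μ) (h₃ : Integrable f₃ μ) :
    ∫ x, (f₁ x - f₂ x - f₃ x) ∂μ = (∫ x, f₁ x ∂μ) - (∫ x, f₂ x ∂μ) - ∫ x, f₃ x ∂μ := by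
  have h12 : Integrable (fun x => f₁ x - f₂ x) μ := h₁.sub h₂
  rw [integral_sub h12 h₃, integral_sub h₁ h₂]

theorem good_step {g : ℝ → ℂ} (hg : Good g) (s y η t₀ : ℝ) (hs : 0 < s) (c : ℂ) :
    Good (fun ξ => g ξ - c * pk s y η t₀ ξ) :=
  hg.sub ((good_pk s y η t₀ hs).smul c)

theorem ms_step {g : ℝ → ℂ} (hg : Good g) (s y η t₀ : ℝ) (hs : 0 < s) :
    ms (fun ξ => g ξ - cf s y η t₀ g * pk s y η t₀ ξ) = ms g - ‖cf s y η t₀ g‖ ^ 2 := by
  set c := cf s y η t₀ g with hc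
  have hpk := good_pk s y η t₀ hs
  have i1 := hg.int_sq
  have i2 : Integrable (fun ξ => (g ξ * (starRingEnd ℂ) (c * pk s y η t₀ ξ))) :=
    hg.int_mul_conj (hpk.smul c)
  have i2r : Integrable (fun ξ => 2 * (g ξ * (starRingEnd ℂ) (c * pk s y η t₀ ξ)).re) :=
    (i2.re).const_mul 2
  have i3 : Integrable (fun ξ => ‖c * pk s y η t₀ ξ‖ ^ 2) := (hpk.smul c).int_sq
  unfold ms
  simp_rw [norm_sub_sq_c]
  rw [integral_three i1 i2r i3, integral_const_mul]
  have e1 : ∫ ξ, (g ξ * (starRingEnd ℂ) (c * pk s y η t₀ ξ)).re = ‖c‖ ^ 2 := by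
    have h1 : ∫ ξ, (g ξ * (starRingEnd ℂ) (c * pk s y η t₀ ξ)).re
        = (∫ ξ, g ξ * (starRingEnd ℂ) (c * pk s y η t₀ ξ)).re := by
      have := integral_re i2
      simpa using this
    rw [h1]
    have h2 : ∫ ξ, g ξ * (starRingEnd ℂ) (c * pk s y η t₀ ξ) = (starRingEnd ℂ) c * c := by
      have h3 : ∫ ξ, g ξ * (starRingEnd ℂ) (pk s y η t₀ ξ) = c := rfl
      calc _ = ∫ ξ, (starRingEnd ℂ) c * (g ξ * (starRingEnd ℂ) (pk s y η t₀ ξ)) := by
            refine integral_congr_ae (Filter.Eventually.of_forall fun ξ => ?_)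
            simp only [map_mul]
            ring
        _ = _ := by rw [integral_const_mul, h3]
    rw [h2, ← Complex.normSq_eq_conj_mul_self, Complex.ofReal_re, Complex.normSq_eq_norm_sq]
  have e2 : ∫ ξ, ‖c * pk s y η t₀ ξ‖ ^ 2 = ‖c‖ ^ 2 := by
    simp_rw [norm_mul, mul_pow]
    rw [integral_const_mul]
    have := ms_pk s y η t₀ hs
    unfold ms at this
    rw [this, mul_one]
  rw [e1, e2]
  ring

theorem int_En {g : ℝ → ℂ} (hg : Good g) (B s x t : ℝ) (hB : 0 < B) (hs : 0 < s) :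
    Integrable (fun p : ℝ × ℝ => W (B * s) (x - p.1) * ‖cf s p.1 p.2 t g‖ ^ 2) := by
  have hBs : 0 < B * s := by positivity
  have hW := continuous_W (B * s) hBs
  refine (int_cf_sq hg s t hs).bdd_mul (c := 2 / (Real.pi * (B * s))) ?_ ?_
  · have : Continuous (fun p : ℝ × ℝ => W (B * s) (x - p.1)) := by fun_prop
    exact this.aestronglyMeasurable
  · refine Filter.Eventually.of_forall fun p => ?_
    rw [Real.norm_of_nonneg (W_nonneg _ _ hBs)]
    exact W_le _ _ hBs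

theorem En_step {g : ℝ → ℂ} (hg : Good g) (B s y η t₀ : ℝ) (hB : 1 ≤ B) (hs : 0 < s)
    (hsup : ∀ y' η', ‖cf s y' η' t₀ g‖ ≤ 2 * ‖cf s y η t₀ g‖) (x t : ℝ) (ht : |t - t₀| ≤ s ^ 2) :
    |En B s x t g - En B s x t (fun ξ => g ξ - cf s y η t₀ g * pk s y η t₀ ξ)
      - ‖cf s y η t₀ g‖ ^ 2 * W (B * s) (x - y - 2 * η * (t - t₀))|
      ≤ 17 * 80256 / B * (‖cf s y η t₀ g‖ ^ 2 * W (B * s) (x - y - 2 * η * (t - t₀))) := by
  set c := cf s y η t₀ g with hc
  set g₁ : ℝ → ℂ := fun ξ => g ξ - c * pk s y η t₀ ξ with hg₁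
  have hB0 : 0 < B := by linarith
  have hBs : 0 < B * s := by positivity
  have hpk := good_pk s y η t₀ hs
  have hGg₁ : Good g₁ := good_step hg s y η t₀ hs c
  have hcf₁ : ∀ p : ℝ × ℝ, cf s p.1 p.2 t g₁ = cf s p.1 p.2 t g - c * cf s p.1 p.2 t (pk s y η t₀) := by
    intro p
    rw [hg₁, cf_sub hg (hpk.smul c) s p.1 p.2 t hs, cf_smul]
  set Y := y + 2 * η * (t - t₀) with hY
  have hxY : x - y - 2 * η * (t - t₀) = x - Y := by rw [hY]; ring
  rw [hxY]
  -- amplitude at time t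
  have hamp : ∀ p : ℝ × ℝ, ‖cf s p.1 p.2 t g‖ ≤ 8 * ‖c‖ := by
    intro p
    refine (amp_transfer s s hs hs t₀ t (2 * ‖c‖) hg hsup p.1 p.2).trans ?_
    have hτ : (t₀ - t) ^ 2 ≤ s ^ 4 := by
      have h4 : |t₀ - t| ≤ s ^ 2 := by rwa [abs_sub_comm]
      have := sq_le_sq' (by linarith [neg_abs_le (t₀ - t)]) ((le_abs_self (t₀ - t)).trans h4)
      nlinarith
    have hfac : ((s ^ 2 + s ^ 2) ^ 2 + 4 * (t₀ - t) ^ 2) / ((s ^ 2 + s ^ 2) * (s * s)) ≤ 4 := by
      rw [div_le_iff₀ (by positivity)]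
      nlinarith
    calc _ ≤ 4 * (2 * ‖c‖) := mul_le_mul_of_nonneg_right hfac (by positivity)
      _ = _ := by ring
  -- the density
  set D : ℝ × ℝ → ℝ := fun p => 2 * (cf s p.1 p.2 t g * (starRingEnd ℂ) (c * cf s p.1 p.2 t (pk s y η t₀))).re
      - ‖c * cf s p.1 p.2 t (pk s y η t₀)‖ ^ 2 with hD
  have hdiff : ∀ p : ℝ × ℝ, ‖cf s p.1 p.2 t g‖ ^ 2 - ‖cf s p.1 p.2 t g₁‖ ^ 2 = D p := by
    intro p
    rw [hcf₁, norm_sub_sq_c, hD]
    ring
  have iA : Integrable (fun p : ℝ × ℝ => cf s p.1 p.2 t g *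
      (starRingEnd ℂ) (cf s p.1 p.2 t (pk s y η t₀))) := (stRep s hs t g _ hg hpk).1
  have eA : ∫ p : ℝ × ℝ, cf s p.1 p.2 t g * (starRingEnd ℂ) (cf s p.1 p.2 t (pk s y η t₀)) = c := by
    rw [(stRep s hs t g _ hg hpk).2, hc]; rfl
  have iA' : Integrable (fun p : ℝ × ℝ => cf s p.1 p.2 t g *
      (starRingEnd ℂ) (c * cf s p.1 p.2 t (pk s y η t₀))) := by
    refine (iA.const_mul ((starRingEnd ℂ) c)).congr (Filter.Eventually.of_forall fun p => ?_)
    simp only [map_mul]; ring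
  have eA' : ∫ p : ℝ × ℝ, (cf s p.1 p.2 t g * (starRingEnd ℂ) (c * cf s p.1 p.2 t (pk s y η t₀))).re
      = ‖c‖ ^ 2 := by
    have h1 : ∫ p : ℝ × ℝ, (cf s p.1 p.2 t g * (starRingEnd ℂ) (c * cf s p.1 p.2 t (pk s y η t₀))).re
        = (∫ p : ℝ × ℝ, cf s p.1 p.2 t g * (starRingEnd ℂ) (c * cf s p.1 p.2 t (pk s y η t₀))).re := by
      have := integral_re iA'
      simpa using this
    rw [h1]
    have h2 : ∫ p : ℝ × ℝ, cf s p.1 p.2 t g * (starRingEnd ℂ) (c * cf s p.1 p.2 t (pk s y η t₀))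
        = (starRingEnd ℂ) c * c := by
      calc _ = ∫ p : ℝ × ℝ, (starRingEnd ℂ) c * (cf s p.1 p.2 t g *
            (starRingEnd ℂ) (cf s p.1 p.2 t (pk s y η t₀))) := by
            refine integral_congr_ae (Filter.Eventually.of_forall fun p => ?_)
            simp only [map_mul]
            ring
        _ = _ := by rw [integral_const_mul, eA]
    rw [h2, ← Complex.normSq_eq_conj_mul_self, Complex.ofReal_re, Complex.normSq_eq_norm_sq]
  have iB : Integrable (fun p : ℝ × ℝ => ‖c * cf s p.1 p.2 t (pk s y η t₀)‖ ^ 2) := by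
    simp_rw [norm_mul, mul_pow]
    exact (int_cf_sq hpk s t hs).const_mul _
  have eB : ∫ p : ℝ × ℝ, ‖c * cf s p.1 p.2 t (pk s y η t₀)‖ ^ 2 = ‖c‖ ^ 2 := by
    simp_rw [norm_mul, mul_pow]
    rw [integral_const_mul, integral_cf_sq hpk s t hs, ms_pk s y η t₀ hs, mul_one]
  have iA2 : Integrable (fun p : ℝ × ℝ => 2 * (cf s p.1 p.2 t g *
      (starRingEnd ℂ) (c * cf s p.1 p.2 t (pk s y η t₀))).re) := (iA'.re).const_mul 2
  have iD : Integrable D := iA2.sub iB
  have eD : ∫ p, D p = ‖c‖ ^ 2 := by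
    have : ∫ p, D p = (∫ p : ℝ × ℝ, 2 * (cf s p.1 p.2 t g *
      (starRingEnd ℂ) (c * cf s p.1 p.2 t (pk s y η t₀))).re)
      - ∫ p : ℝ × ℝ, ‖c * cf s p.1 p.2 t (pk s y η t₀)‖ ^ 2 := integral_sub iA2 iB
    rw [this, integral_const_mul, eA', eB]
    ring
  -- the difference of energies
  have h1 : En B s x t g - En B s x t g₁ - ‖c‖ ^ 2 * W (B * s) (x - Y)
      = ∫ p : ℝ × ℝ, (W (B * s) (x - p.1) - W (B * s) (x - Y)) * D p := by
    have j1 := int_En hg B s x t hB0 hs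
    have j2 := int_En hGg₁ B s x t hB0 hs
    unfold En
    rw [← eD, ← integral_mul_const, ← integral_three' j1 j2 (iD.mul_const _)]
    refine integral_congr_ae (Filter.Eventually.of_forall fun p => ?_)
    simp only
    rw [← hdiff p]
    ring
  rw [h1]
  have hw := weight_int B s hB hs x y η t₀ t ht
  rw [← hY] at hw
  have hbd : ∀ p : ℝ × ℝ, ‖(W (B * s) (x - p.1) - W (B * s) (x - Y)) * D p‖ ≤
      17 * ‖c‖ ^ 2 * (|W (B * s) (x - p.1) - W (B * s) (x - Y)| * ‖cf s p.1 p.2 t (pk s y η t₀)‖) := by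
    intro p
    rw [norm_mul, Real.norm_eq_abs, Real.norm_eq_abs]
    have hk1 : ‖cf s p.1 p.2 t (pk s y η t₀)‖ ≤ 1 := by
      refine (ov_prod s hs y η t₀ t p.1 p.2 ht).trans ?_
      rw [← Real.exp_add, Real.exp_le_one_iff]
      have := Real.pi_pos
      have h2 : 0 ≤ Real.pi / 16 * ((p.1 - (y + 2 * η * (t - t₀))) / s) ^ 2 := by positivity
      have h3 : 0 ≤ Real.pi / 8 * (s * (p.2 - η)) ^ 2 := by positivity
      linarith
    have hk0 := norm_nonneg (cf s p.1 p.2 t (pk s y η t₀))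
    have hDb : |D p| ≤ 17 * ‖c‖ ^ 2 * ‖cf s p.1 p.2 t (pk s y η t₀)‖ := by
      have h4 : |(cf s p.1 p.2 t g * (starRingEnd ℂ) (c * cf s p.1 p.2 t (pk s y η t₀))).re|
          ≤ 8 * ‖c‖ * (‖c‖ * ‖cf s p.1 p.2 t (pk s y η t₀)‖) := by
        refine (Complex.abs_re_le_norm _).trans ?_
        rw [norm_mul, RCLike.norm_conj, norm_mul]
        exact mul_le_mul_of_nonneg_right (hamp p) (by positivity)
      have h5 : ‖c * cf s p.1 p.2 t (pk s y η t₀)‖ ^ 2 ≤ ‖c‖ ^ 2 * ‖cf s p.1 p.2 t (pk s y η t₀)‖ := by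
        rw [norm_mul, mul_pow]
        refine mul_le_mul_of_nonneg_left ?_ (by positivity)
        nlinarith
      have h6 : 0 ≤ ‖c * cf s p.1 p.2 t (pk s y η t₀)‖ ^ 2 := by positivity
      rw [hD]
      calc |2 * (cf s p.1 p.2 t g * (starRingEnd ℂ) (c * cf s p.1 p.2 t (pk s y η t₀))).re
          - ‖c * cf s p.1 p.2 t (pk s y η t₀)‖ ^ 2|
          ≤ |2 * (cf s p.1 p.2 t g * (starRingEnd ℂ) (c * cf s p.1 p.2 t (pk s y η t₀))).re|
            + |‖c * cf s p.1 p.2 t (pk s y η t₀)‖ ^ 2| := abs_sub _ _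
        _ = 2 * |(cf s p.1 p.2 t g * (starRingEnd ℂ) (c * cf s p.1 p.2 t (pk s y η t₀))).re|
            + ‖c * cf s p.1 p.2 t (pk s y η t₀)‖ ^ 2 := by
            rw [abs_mul, abs_two, abs_of_nonneg h6]
        _ ≤ 2 * (8 * ‖c‖ * (‖c‖ * ‖cf s p.1 p.2 t (pk s y η t₀)‖))
            + ‖c‖ ^ 2 * ‖cf s p.1 p.2 t (pk s y η t₀)‖ := by gcongr
        _ = _ := by ring
    calc _ ≤ |W (B * s) (x - p.1) - W (B * s) (x - Y)| * (17 * ‖c‖ ^ 2 * ‖cf s p.1 p.2 t (pk s y η t₀)‖) :=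
          mul_le_mul_of_nonneg_left hDb (abs_nonneg _)
      _ = _ := by ring
  rw [← Real.norm_eq_abs]
  calc _ ≤ ∫ p : ℝ × ℝ, 17 * ‖c‖ ^ 2 * (|W (B * s) (x - p.1) - W (B * s) (x - Y)| *
        ‖cf s p.1 p.2 t (pk s y η t₀)‖) :=
        norm_integral_le_of_norm_le (hw.1.const_mul _) (Filter.Eventually.of_forall hbd)
    _ = 17 * ‖c‖ ^ 2 * ∫ p : ℝ × ℝ, (|W (B * s) (x - p.1) - W (B * s) (x - Y)| *
        ‖cf s p.1 p.2 t (pk s y η t₀)‖) := integral_const_mul _ _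
    _ ≤ 17 * ‖c‖ ^ 2 * (80256 / B * W (B * s) (x - Y)) :=
        mul_le_mul_of_nonneg_left hw.2 (by positivity)
    _ = _ := by ring

/-- X3: pruning -/
theorem prune_aux (B : ℝ) (hB : 3000000 ≤ B) (C₀ C₁ s t₀ b : ℝ) (hs : 0 < s) (hb : 0 < b) :
    ∀ N : ℕ, ∀ g : ℝ → ℂ, Good g → ms g ≤ N * (b ^ 2 * s) →
    ∃ (g' : ℝ → ℂ) (n : ℕ) (c : ℕ → ℂ) (y η : ℕ → ℝ), Pruned B b C₀ C₁ s t₀ g g' n c y η := by
  have hB1 : 1 ≤ B := by linarith
  have hB0 : 0 < B := by linarith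
  have hBs : 0 < B * s := by positivity
  have hbs : 0 < b * Real.sqrt s := by positivity
  have htriv : ∀ g : ℝ → ℂ, Good g → (∀ y' η', ‖cf s y' η' t₀ g‖ ≤ b * Real.sqrt s) →
      ∃ (g' : ℝ → ℂ) (n : ℕ) (c : ℕ → ℂ) (y η : ℕ → ℝ), Pruned B b C₀ C₁ s t₀ g g' n c y η := by
    intro g hg hsm
    refine ⟨g, 0, fun _ => 0, fun _ => 0, fun _ => 0, ?_⟩
    exact
      { good := hg, good' := hg
        eq := fun ξ => by simp
        small := hsm
        big := fun i hi => absurd hi (by omega)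
        mass := by simp
        lo := fun x t _ => by simp
        hi := fun x t _ => by simp }
  intro N
  induction N with
  | zero =>
    intro g hg hm
    refine htriv g hg fun y' η' => ?_
    by_contra hcon
    rw [not_le] at hcon
    have h1 := ms_step hg s y' η' t₀ hs
    have h2 := Good.ms_nonneg (fun ξ => g ξ - cf s y' η' t₀ g * pk s y' η' t₀ ξ)
    have h3 : 0 < ‖cf s y' η' t₀ g‖ ^ 2 := by
      have := hbs.trans hcon
      positivity
    simp only [Nat.cast_zero, zero_mul] at hm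
    linarith
  | succ N ih =>
    intro g hg hm
    by_cases hsm : ∀ y' η', ‖cf s y' η' t₀ g‖ ≤ b * Real.sqrt s
    · exact htriv g hg hsm
    push Not at hsm
    obtain ⟨y₁, η₁, h1⟩ := hsm
    -- the supremum
    set S : ℝ := ⨆ p : ℝ × ℝ, ‖cf s p.1 p.2 t₀ g‖ with hS
    have hbdd : BddAbove (Set.range fun p : ℝ × ℝ => ‖cf s p.1 p.2 t₀ g‖) :=
      ⟨_, by rintro _ ⟨p, rfl⟩; exact norm_cf_le hg.1 s p.1 p.2 t₀ hs⟩
    have hle : ∀ p : ℝ × ℝ, ‖cf s p.1 p.2 t₀ g‖ ≤ S := fun p => le_ciSup hbdd p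
    have hSb : b * Real.sqrt s < S := h1.trans_le (hle (y₁, η₁))
    have hS0 : 0 < S := hbs.trans hSb
    obtain ⟨⟨y₂, η₂⟩, h2⟩ : ∃ p : ℝ × ℝ, max (b * Real.sqrt s) (S / 2) < ‖cf s p.1 p.2 t₀ g‖ := by
      refine exists_lt_of_lt_ciSup ?_
      rw [← hS]
      exact max_lt hSb (by linarith)
    simp only at h2
    have h2a : b * Real.sqrt s < ‖cf s y₂ η₂ t₀ g‖ := (le_max_left _ _).trans_lt h2
    have h2b : S / 2 < ‖cf s y₂ η₂ t₀ g‖ := (le_max_right _ _).trans_lt h2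
    set c₂ := cf s y₂ η₂ t₀ g with hc₂
    have hsup : ∀ y' η', ‖cf s y' η' t₀ g‖ ≤ 2 * ‖c₂‖ := by
      intro y' η'
      have := hle (y', η')
      simp only at this
      linarith
    set g₁ : ℝ → ℂ := fun ξ => g ξ - c₂ * pk s y₂ η₂ t₀ ξ with hg₁
    have hg₁G : Good g₁ := good_step hg s y₂ η₂ t₀ hs c₂
    have hms : ms g₁ = ms g - ‖c₂‖ ^ 2 := ms_step hg s y₂ η₂ t₀ hs
    have hc2sq : b ^ 2 * s < ‖c₂‖ ^ 2 := by
      have : (b * Real.sqrt s) ^ 2 = b ^ 2 * s := by rw [mul_pow, Real.sq_sqrt hs.le]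
      rw [← this]
      exact pow_lt_pow_left₀ h2a hbs.le (by norm_num)
    obtain ⟨g', n, c, y, η, hP⟩ := ih g₁ hg₁G (by
      rw [hms]
      push_cast at hm
      linarith)
    refine ⟨g', n + 1, fun i => if i = 0 then c₂ else c (i - 1), fun i => if i = 0 then y₂ else y (i - 1),
      fun i => if i = 0 then η₂ else η (i - 1), ?_⟩
    have hen := fun x t ht => En_step hg B s y₂ η₂ t₀ hB1 hs hsup x t ht
    have hfrac : 17 * 80256 / B ≤ 1 / 2 := by
      rw [div_le_iff₀ hB0]; linarith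
    exact
      { good := hg
        good' := hP.good'
        eq := fun ξ => by
          rw [Finset.sum_range_succ']
          simp only [Nat.add_eq_zero_iff, one_ne_zero, and_false, if_false, Nat.add_sub_cancel, if_true]
          have := hP.eq ξ
          rw [hg₁] at this
          simp only at this
          rw [← add_assoc, ← this]
          ring
        small := hP.small
        big := fun i hi => by
          by_cases h0 : i = 0
          · simp only [h0, if_true]; exact h2a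
          · simp only [h0, if_false]; exact hP.big (i - 1) (by omega)
        mass := by
          rw [Finset.sum_range_succ']
          simp only [Nat.add_eq_zero_iff, one_ne_zero, and_false, if_false, Nat.add_sub_cancel, if_true]
          have := hP.mass
          rw [hms] at this
          linarith
        lo := fun x t ht => by
          rw [Finset.sum_range_succ']
          simp only [Nat.add_eq_zero_iff, one_ne_zero, and_false, if_false, Nat.add_sub_cancel, if_true]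
          have h3 := hP.lo x t ht
          have h4 := hen x t ht
          have h5 : 0 ≤ ‖c₂‖ ^ 2 * W (B * s) (x - y₂ - 2 * η₂ * (t - t₀)) :=
            mul_nonneg (by positivity) (W_nonneg _ _ hBs)
          have h6 := (abs_le.1 h4).1
          have h7 := mul_le_mul_of_nonneg_right hfrac h5
          simp only [← hc₂, ← hg₁] at h6 h7
          linarith
        hi := fun x t ht => by
          rw [Finset.sum_range_succ']
          simp only [Nat.add_eq_zero_iff, one_ne_zero, and_false, if_false, Nat.add_sub_cancel, if_true]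
          have h3 := hP.hi x t ht
          have h4 := hen x t ht
          have h5 : 0 ≤ ‖c₂‖ ^ 2 * W (B * s) (x - y₂ - 2 * η₂ * (t - t₀)) :=
            mul_nonneg (by positivity) (W_nonneg _ _ hBs)
          have h6 := (abs_le.1 h4).2
          have h7 := mul_le_mul_of_nonneg_right hfrac h5
          simp only [← hc₂, ← hg₁] at h6 h7
          linarith }

theorem stPrune : StPrune := by
  refine ⟨3000000, by norm_num, fun C₀ _ => ⟨1, one_pos, ?_⟩⟩
  intro s t₀ b hs hb g hg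
  have hpos : 0 < b ^ 2 * s := by positivity
  exact prune_aux 3000000 le_rfl C₀ 1 s t₀ b hs hb ⌈ms g / (b ^ 2 * s)⌉₊ g hg (by
    have := Nat.le_ceil (ms g / (b ^ 2 * s))
    rwa [div_le_iff₀ hpos] at this)

end Vale.Agent.P076.X
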