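import Vale.Agent.P076.X.Spec

/-! # P076, block X: elementary facts on `ex`, `pk`, `cf` -/

set_option linter.all false

open MeasureTheory Complex

namespace Vale.Agent.P076.X

theorem ex_add (a b : ℝ) : ex (a + b) = ex a * ex b := by
  unfold ex
  rw [← Complex.exp_add]
  congr 1
  push_cast
  ring

theorem ex_zero : ex 0 = 1 := by simp [ex]

theorem norm_ex (a : ℝ) : ‖ex a‖ = 1 := by
  unfold ex
  exact Complex.norm_exp_ofReal_mul_I _

theorem ex_ne_zero (a : ℝ) : ex a ≠ 0 := by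
  intro h
  have := norm_ex a
  rw [h, norm_zero] at this
  norm_num at this

theorem conj_ex (a : ℝ) : (starRingEnd ℂ) (ex a) = ex (-a) := by
  unfold ex
  rw [← Complex.exp_conj, map_mul, Complex.conj_ofReal, Complex.conj_I]
  congr 1
  push_cast
  ring

theorem ex_mul_neg (a : ℝ) : ex a * ex (-a) = 1 := by
  rw [← ex_add]; simp [ex_zero]

theorem continuous_ex : Continuous ex := by
  unfold ex
  fun_prop

theorem measurable_ex : Measurable ex := continuous_ex.measurable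

/-- the modulus of the packet profile -/
noncomputable def pa (s η : ℝ) (ξ : ℝ) : ℝ :=
  (2:ℝ) ^ (1/4 : ℝ) * Real.sqrt s * Real.exp (-Real.pi * s ^ 2 * (ξ - η) ^ 2)

theorem pk_eq (s y η t ξ : ℝ) : pk s y η t ξ = (pa s η ξ : ℂ) * ex (t * ξ ^ 2 - y * (ξ - η)) := rfl

theorem pa_nonneg (s η ξ : ℝ) : 0 ≤ pa s η ξ := by
  unfold pa; positivity

theorem norm_pk (s y η t ξ : ℝ) : ‖pk s y η t ξ‖ = pa s η ξ := by
  rw [pk_eq, norm_mul, norm_ex, mul_one, Complex.norm_real, Real.norm_of_nonneg (pa_nonneg _ _ _)]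

theorem conj_pk (s y η t ξ : ℝ) :
    (starRingEnd ℂ) (pk s y η t ξ) = (pa s η ξ : ℂ) * ex (y * (ξ - η) - t * ξ ^ 2) := by
  rw [pk_eq, map_mul, conj_ex, Complex.conj_ofReal]
  congr 2
  ring

theorem continuous_pa (s : ℝ) : Continuous (fun p : ℝ × ℝ => pa s p.1 p.2) := by
  unfold pa
  fun_prop

theorem continuous_pk (s : ℝ) :
    Continuous (fun q : ℝ × ℝ × ℝ × ℝ => pk s q.1 q.2.1 q.2.2.1 q.2.2.2) := by
  unfold pk
  have := continuous_ex
  fun_prop

theorem continuous_pk' (s y η t : ℝ) : Continuous (pk s y η t) := by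
  unfold pk
  have := continuous_ex
  fun_prop

theorem pa_le (s η ξ : ℝ) (hs : 0 < s) : pa s η ξ ≤ (2:ℝ) ^ (1/4 : ℝ) * Real.sqrt s := by
  unfold pa
  have h : Real.exp (-Real.pi * s ^ 2 * (ξ - η) ^ 2) ≤ 1 := by
    rw [Real.exp_le_one_iff]
    have : 0 ≤ Real.pi * s ^ 2 * (ξ - η) ^ 2 := by positivity
    nlinarith
  calc _ ≤ (2:ℝ) ^ (1/4 : ℝ) * Real.sqrt s * 1 := by gcongr
    _ = _ := mul_one _

theorem two_rpow_sq : ((2:ℝ) ^ (1/4 : ℝ)) ^ 2 = Real.sqrt 2 := by
  rw [← Real.rpow_natCast, ← Real.rpow_mul (by norm_num), Real.sqrt_eq_rpow]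
  norm_num

theorem pa_sq (s η ξ : ℝ) (hs : 0 < s) :
    pa s η ξ ^ 2 = Real.sqrt 2 * s * Real.exp (-(2 * Real.pi * s ^ 2) * (ξ - η) ^ 2) := by
  unfold pa
  rw [mul_pow, mul_pow, two_rpow_sq, Real.sq_sqrt hs.le, ← Real.exp_nat_mul]
  congr 2
  push_cast
  ring

theorem integral_pa_sq (s ξ : ℝ) (hs : 0 < s) : ∫ η, pa s η ξ ^ 2 = 1 := by
  simp_rw [fun η => pa_sq s η ξ hs]
  rw [integral_const_mul]
  have h : ∫ η : ℝ, Real.exp (-(2 * Real.pi * s ^ 2) * (ξ - η) ^ 2)
      = ∫ η : ℝ, Real.exp (-(2 * Real.pi * s ^ 2) * η ^ 2) := by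
    exact integral_sub_left_eq_self (fun η : ℝ => Real.exp (-(2 * Real.pi * s ^ 2) * η ^ 2)) volume ξ
  rw [h, integral_gaussian]
  have : Real.pi / (2 * Real.pi * s ^ 2) = (Real.sqrt 2 * s)⁻¹ ^ 2 := by
    rw [inv_pow, mul_pow, Real.sq_sqrt (by norm_num)]
    field_simp
  rw [this, Real.sqrt_sq (by positivity)]
  field_simp

theorem integral_pa_sq' (s η : ℝ) (hs : 0 < s) : ∫ ξ, pa s η ξ ^ 2 = 1 := by
  simp_rw [fun ξ => pa_sq s η ξ hs]
  rw [integral_const_mul]
  have h : ∫ ξ : ℝ, Real.exp (-(2 * Real.pi * s ^ 2) * (ξ - η) ^ 2)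
      = ∫ η : ℝ, Real.exp (-(2 * Real.pi * s ^ 2) * η ^ 2) := by
    exact integral_sub_right_eq_self (fun η : ℝ => Real.exp (-(2 * Real.pi * s ^ 2) * η ^ 2)) η
  rw [h, integral_gaussian]
  have : Real.pi / (2 * Real.pi * s ^ 2) = (Real.sqrt 2 * s)⁻¹ ^ 2 := by
    rw [inv_pow, mul_pow, Real.sq_sqrt (by norm_num)]
    field_simp
  rw [this, Real.sqrt_sq (by positivity)]
  field_simp

theorem integrable_pa (s η : ℝ) (hs : 0 < s) : Integrable (pa s η) := by
  unfold pa
  have h := (integrable_exp_neg_mul_sq (b := Real.pi * s ^ 2) (by positivity)).comp_sub_right η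
  refine (h.const_mul ((2:ℝ) ^ (1/4 : ℝ) * Real.sqrt s)).congr (Filter.Eventually.of_forall fun ξ => ?_)
  simp only [neg_mul]

theorem integrable_pa_sq (s η : ℝ) (hs : 0 < s) : Integrable (fun ξ => pa s η ξ ^ 2) := by
  by_contra h
  have := integral_undef h
  rw [integral_pa_sq' s η hs] at this
  norm_num at this

theorem integrable_pk (s y η t : ℝ) (hs : 0 < s) : Integrable (pk s y η t) := by
  refine (integrable_pa s η hs).mono' (continuous_pk' s y η t).aestronglyMeasurable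
    (Filter.Eventually.of_forall fun ξ => ?_)
  rw [norm_pk]

theorem good_pk (s y η t : ℝ) (hs : 0 < s) : Good (pk s y η t) := by
  refine ⟨integrable_pk s y η t hs, ?_⟩
  rw [memLp_two_iff_integrable_sq_norm (continuous_pk' s y η t).aestronglyMeasurable]
  simp_rw [norm_pk]
  exact integrable_pa_sq s η hs

theorem ms_pk (s y η t : ℝ) (hs : 0 < s) : ms (pk s y η t) = 1 := by
  unfold ms
  simp_rw [norm_pk]
  exact integral_pa_sq' s η hs

theorem Good.add {g h : ℝ → ℂ} (hg : Good g) (hh : Good h) : Good (fun ξ => g ξ + h ξ) :=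
  ⟨hg.1.add hh.1, hg.2.add hh.2⟩

theorem Good.sub {g h : ℝ → ℂ} (hg : Good g) (hh : Good h) : Good (fun ξ => g ξ - h ξ) :=
  ⟨hg.1.sub hh.1, hg.2.sub hh.2⟩

theorem Good.smul {g : ℝ → ℂ} (hg : Good g) (c : ℂ) : Good (fun ξ => c * g ξ) :=
  ⟨hg.1.const_mul c, hg.2.const_mul c⟩

theorem Good.zero : Good (fun _ => 0) := ⟨integrable_zero _ _ _, MemLp.zero⟩

theorem Good.sum {ι : Type*} (S : Finset ι) {g : ι → ℝ → ℂ} (hg : ∀ i ∈ S, Good (g i)) :
    Good (fun ξ => ∑ i ∈ S, g i ξ) := by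
  classical
  induction S using Finset.induction_on with
  | empty => simpa using Good.zero
  | insert a S ha ih =>
    simp_rw [Finset.sum_insert ha]
    exact (hg a (Finset.mem_insert_self a S)).add
      (ih fun i hi => hg i (Finset.mem_insert_of_mem hi))

theorem Good.int_sq {g : ℝ → ℂ} (hg : Good g) : Integrable (fun ξ => ‖g ξ‖ ^ 2) :=
  (memLp_two_iff_integrable_sq_norm hg.1.aestronglyMeasurable).1 hg.2

theorem Good.ms_nonneg (g : ℝ → ℂ) : 0 ≤ ms g := integral_nonneg fun _ => by positivity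

theorem Good.int_mul_conj {g h : ℝ → ℂ} (hg : Good g) (hh : Good h) :
    Integrable (fun ξ => g ξ * (starRingEnd ℂ) (h ξ)) := by
  have h1 : MemLp (fun ξ => (starRingEnd ℂ) (h ξ)) 2 volume := by
    refine ⟨(Complex.continuous_conj.comp_aestronglyMeasurable hh.1.aestronglyMeasurable), ?_⟩
    have : eLpNorm (fun ξ => (starRingEnd ℂ) (h ξ)) 2 volume = eLpNorm h 2 volume :=
      eLpNorm_congr_norm_ae (Filter.Eventually.of_forall fun ξ => by simp)
    rw [this]; exact hh.2.2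
  have := h1.mul hg.2 (p := 2) (q := 2) (r := 1)
  exact memLp_one_iff_integrable.1 this

/-- integrability of the integrand of `cf` -/
theorem cf_integrable {g : ℝ → ℂ} (hg : Good g) (s y η t : ℝ) (hs : 0 < s) :
    Integrable (fun ξ => g ξ * (starRingEnd ℂ) (pk s y η t ξ)) :=
  hg.int_mul_conj (good_pk s y η t hs)

theorem cf_add {g h : ℝ → ℂ} (hg : Good g) (hh : Good h) (s y η t : ℝ) (hs : 0 < s) :
    cf s y η t (fun ξ => g ξ + h ξ) = cf s y η t g + cf s y η t h := by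
  unfold cf
  rw [← integral_add (cf_integrable hg s y η t hs) (cf_integrable hh s y η t hs)]
  refine integral_congr_ae (Filter.Eventually.of_forall fun ξ => ?_)
  ring

theorem cf_sub {g h : ℝ → ℂ} (hg : Good g) (hh : Good h) (s y η t : ℝ) (hs : 0 < s) :
    cf s y η t (fun ξ => g ξ - h ξ) = cf s y η t g - cf s y η t h := by
  unfold cf
  rw [← integral_sub (cf_integrable hg s y η t hs) (cf_integrable hh s y η t hs)]
  refine integral_congr_ae (Filter.Eventually.of_forall fun ξ => ?_)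
  ring

theorem cf_smul (g : ℝ → ℂ) (c : ℂ) (s y η t : ℝ) :
    cf s y η t (fun ξ => c * g ξ) = c * cf s y η t g := by
  unfold cf
  rw [← integral_const_mul]
  refine integral_congr_ae (Filter.Eventually.of_forall fun ξ => ?_)
  ring

theorem continuous_cf {g : ℝ → ℂ} (hg : Integrable g) (s t : ℝ) (hs : 0 < s) :
    Continuous (fun p : ℝ × ℝ => cf s p.1 p.2 t g) := by
  unfold cf
  refine continuous_of_dominated (bound := fun ξ => ‖g ξ‖ * ((2:ℝ) ^ (1/4 : ℝ) * Real.sqrt s)) ?_ ?_ ?_ ?_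
  · intro p
    exact hg.aestronglyMeasurable.mul
      (Complex.continuous_conj.comp (continuous_pk' s p.1 p.2 t)).aestronglyMeasurable
  · intro p
    refine Filter.Eventually.of_forall fun ξ => ?_
    rw [norm_mul, RCLike.norm_conj, norm_pk]
    exact mul_le_mul_of_nonneg_left (pa_le s p.2 ξ hs) (norm_nonneg _)
  · exact hg.norm.mul_const _
  · refine Filter.Eventually.of_forall fun ξ => ?_
    have := continuous_ex
    unfold pk
    fun_prop

theorem norm_cf_le {g : ℝ → ℂ} (hg : Integrable g) (s y η t : ℝ) (hs : 0 < s) :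
    ‖cf s y η t g‖ ≤ (∫ ξ, ‖g ξ‖) * ((2:ℝ) ^ (1/4 : ℝ) * Real.sqrt s) := by
  unfold cf
  refine (norm_integral_le_integral_norm _).trans ?_
  rw [← integral_mul_const]
  refine integral_mono_of_nonneg (Filter.Eventually.of_forall fun ξ => norm_nonneg _)
    (hg.norm.mul_const _) (Filter.Eventually.of_forall fun ξ => ?_)
  simp only
  rw [norm_mul, RCLike.norm_conj, norm_pk]
  exact mul_le_mul_of_nonneg_left (pa_le s η ξ hs) (norm_nonneg _)

end Vale.Agent.P076.X
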