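import Vale.Agent.P076.X.Amp

/-! # P076, block X: greedy pruning (StPrune) -/

set_option linter.all false

open MeasureTheory Complex

namespace Vale.Agent.P076.X

theorem W_nonneg (r x : ℝ) (hr : 0 < r) : 0 ≤ W r x := by
  unfold W; have := Real.pi_pos; positivity

theorem W_pos (r x : ℝ) (hr : 0 < r) : 0 < W r x := by
  unfold W; have := Real.pi_pos; positivity

theorem continuous_W (r : ℝ) (hr : 0 < r) : Continuous (W r) := by
  unfold W
  have : ∀ x : ℝ, (1 + x ^ 2 / r ^ 2) ^ 2 ≠ 0 := fun x => by positivity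
  fun_prop (disch := exact this _)

theorem W_le (r x : ℝ) (hr : 0 < r) : W r x ≤ 2 / (Real.pi * r) := by
  unfold W
  have hpi := Real.pi_pos
  have h1 : ((1 + x ^ 2 / r ^ 2) ^ 2)⁻¹ ≤ 1 := by
    apply inv_le_one_of_one_le₀
    have : 0 ≤ x ^ 2 / r ^ 2 := by positivity
    nlinarith
  calc _ ≤ 2 / (Real.pi * r) * 1 := by gcongr
    _ = _ := mul_one _

/-- modulus of continuity of the weight (log-Lipschitz with polynomial growth) -/
theorem W_diff (r a b : ℝ) (hr : 0 < r) :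
    |W r b - W r a| ≤ 3 * (|b - a| / r) * (1 + |b - a| / r) ^ 3 * W r a := by
  unfold W
  have hpi := Real.pi_pos
  set A := a / r with hA
  set D := (b - a) / r with hD
  have hb : b ^ 2 / r ^ 2 = (A + D) ^ 2 := by rw [hA, hD]; field_simp; ring
  have ha : a ^ 2 / r ^ 2 = A ^ 2 := by rw [hA]; field_simp
  have hd : |b - a| / r = |D| := by rw [hD, abs_div, abs_of_pos hr]
  rw [hb, ha, hd]
  set B := A + D with hB
  have h1 : (0:ℝ) < 1 + A ^ 2 := by positivity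
  have h2 : (0:ℝ) < 1 + B ^ 2 := by positivity
  have key : |((1 + B ^ 2) ^ 2)⁻¹ - ((1 + A ^ 2) ^ 2)⁻¹| ≤
      3 * |D| * (1 + |D|) ^ 3 * ((1 + A ^ 2) ^ 2)⁻¹ := by
    have e1 : ((1 + B ^ 2) ^ 2)⁻¹ - ((1 + A ^ 2) ^ 2)⁻¹
        = (A ^ 2 - B ^ 2) * (2 + A ^ 2 + B ^ 2) / (1 + B ^ 2) ^ 2 * ((1 + A ^ 2) ^ 2)⁻¹ := by
      field_simp; ring
    rw [e1, abs_mul, abs_of_nonneg (by positivity : 0 ≤ ((1 + A ^ 2) ^ 2)⁻¹)]
    refine mul_le_mul_of_nonneg_right ?_ (by positivity)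
    rw [abs_div, abs_of_nonneg (by positivity : (0:ℝ) ≤ (1 + B ^ 2) ^ 2), div_le_iff₀ (by positivity),
      abs_mul, abs_of_nonneg (by positivity : (0:ℝ) ≤ 2 + A ^ 2 + B ^ 2)]
    have hDn := abs_nonneg D
    have hAB : |A ^ 2 - B ^ 2| ≤ |D| * ((1 + B ^ 2) * (1 + |D|)) := by
      have : A ^ 2 - B ^ 2 = -(D * (2 * B - D)) := by rw [hB]; ring
      rw [this, abs_neg, abs_mul]
      refine mul_le_mul_of_nonneg_left ?_ hDn
      have h3 : |2 * B - D| ≤ 2 * |B| + |D| := by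
        calc |2 * B - D| ≤ |2 * B| + |D| := abs_sub _ _
          _ = _ := by rw [abs_mul, abs_two]
      have h4 : 2 * |B| ≤ 1 + B ^ 2 := by nlinarith [sq_nonneg (|B| - 1), sq_abs B]
      nlinarith [sq_nonneg B]
    have hS : 2 + A ^ 2 + B ^ 2 ≤ 3 * (1 + B ^ 2) * (1 + |D|) ^ 2 := by
      have : A ^ 2 ≤ 2 * B ^ 2 + 2 * |D| ^ 2 := by
        rw [sq_abs]; have : A = B - D := by rw [hB]; ring
        rw [this]; nlinarith [sq_nonneg (B + D)]
      nlinarith [sq_nonneg B, mul_nonneg (sq_nonneg B) hDn, mul_nonneg (sq_nonneg B) (sq_nonneg |D|)]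
    calc |A ^ 2 - B ^ 2| * (2 + A ^ 2 + B ^ 2)
        ≤ (|D| * ((1 + B ^ 2) * (1 + |D|))) * (3 * (1 + B ^ 2) * (1 + |D|) ^ 2) := by
          gcongr
      _ = _ := by ring
  have e2 : 2 / (Real.pi * r) * ((1 + B ^ 2) ^ 2)⁻¹ - 2 / (Real.pi * r) * ((1 + A ^ 2) ^ 2)⁻¹
      = 2 / (Real.pi * r) * (((1 + B ^ 2) ^ 2)⁻¹ - ((1 + A ^ 2) ^ 2)⁻¹) := by ring
  rw [e2, abs_mul, abs_of_pos (by positivity : 0 < 2 / (Real.pi * r))]
  calc _ ≤ 2 / (Real.pi * r) * (3 * |D| * (1 + |D|) ^ 3 * ((1 + A ^ 2) ^ 2)⁻¹) :=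
        mul_le_mul_of_nonneg_left key (by positivity)
    _ = _ := by ring

/-- product Gaussian bound of the overlap at equal scales -/
theorem ov_prod (s : ℝ) (hs : 0 < s) (y η t₀ t y' η' : ℝ) (ht : |t - t₀| ≤ s ^ 2) :
    ‖cf s y' η' t (pk s y η t₀)‖ ≤
      Real.exp (-(Real.pi / 16) * ((y' - (y + 2 * η * (t - t₀))) / s) ^ 2) *
        Real.exp (-(Real.pi / 8) * (s * (η' - η)) ^ 2) := by
  refine (norm_cf_pk s s hs hs y η t₀ y' η' t).trans ?_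
  have h1 := sqrt_ratio_le s s hs hs
  refine (mul_le_of_le_one_left (Real.exp_nonneg _) h1).trans ?_
  rw [← Real.exp_add, Real.exp_le_exp]
  have hpi := Real.pi_pos
  set τ := t - t₀ with hτ
  set σ := τ / s ^ 2 with hσ
  set u := (y' - (y + 2 * η * τ)) / s with hu
  set h := s * (η' - η) with hh
  have hs2 : 0 < s ^ 2 := by positivity
  have hσ1 : σ ^ 2 ≤ 1 := by
    have : |σ| ≤ 1 := by rw [hσ, abs_div, abs_of_pos hs2, div_le_one hs2]; exact ht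
    nlinarith [sq_abs σ, abs_nonneg σ]
  have hτ' : τ = σ * s ^ 2 := by rw [hσ]; field_simp
  have e1 : (y' - y - 2 * η * τ - 2 * s ^ 2 * τ / (s ^ 2 + s ^ 2) * (η' - η)) ^ 2 + s ^ 2 * s ^ 2 * (η' - η) ^ 2
      = s ^ 2 * ((u - σ * h) ^ 2 + h ^ 2) := by
    have : y' - y - 2 * η * τ - 2 * s ^ 2 * τ / (s ^ 2 + s ^ 2) * (η' - η) = s * (u - σ * h) := by
      rw [hu, hσ, hh]; field_simp; ring
    rw [this, hh]; ring
  have e2 : Real.pi * (s ^ 2 + s ^ 2) / ((s ^ 2 + s ^ 2) ^ 2 + 4 * τ ^ 2)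
      = Real.pi / (2 * s ^ 2 * (1 + σ ^ 2)) := by
    rw [hτ']; field_simp; ring
  rw [e1, e2]
  have e3 : -(Real.pi / (2 * s ^ 2 * (1 + σ ^ 2))) * (s ^ 2 * ((u - σ * h) ^ 2 + h ^ 2))
      = -(Real.pi / (2 * (1 + σ ^ 2))) * ((u - σ * h) ^ 2 + h ^ 2) := by
    field_simp
  rw [e3]
  have e4 : Real.pi / 4 ≤ Real.pi / (2 * (1 + σ ^ 2)) := by
    apply div_le_div_of_nonneg_left hpi.le (by positivity)
    nlinarith
  have e5 : u ^ 2 / 4 + h ^ 2 / 2 ≤ (u - σ * h) ^ 2 + h ^ 2 := by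
    have h5 : (σ * h) ^ 2 ≤ h ^ 2 := by
      rw [mul_pow]
      exact mul_le_of_le_one_left (sq_nonneg h) hσ1
    have h6 : u ^ 2 = 2 * (u - σ * h) ^ 2 + 2 * (σ * h) ^ 2 - (u - 2 * (σ * h)) ^ 2 := by ring
    have h7 := sq_nonneg (u - 2 * (σ * h))
    have h8 := sq_nonneg (u - σ * h)
    linarith
  have e6 : 0 ≤ (u - σ * h) ^ 2 + h ^ 2 := by positivity
  have e7 : Real.pi / 4 * (u ^ 2 / 4 + h ^ 2 / 2) ≤
      Real.pi / (2 * (1 + σ ^ 2)) * ((u - σ * h) ^ 2 + h ^ 2) :=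
    mul_le_mul e4 e5 (by positivity) (by positivity)
  have e8 : -(Real.pi / 16) * u ^ 2 + -(Real.pi / 8) * h ^ 2 = -(Real.pi / 4 * (u ^ 2 / 4 + h ^ 2 / 2)) := by
    ring
  rw [e8, neg_mul]
  exact neg_le_neg e7

theorem poly_le_exp (u : ℝ) : |u| * (1 + |u|) ^ 3 ≤ 1672 * Real.exp (Real.pi / 32 * u ^ 2) := by
  have hx : 0 ≤ Real.pi / 32 * u ^ 2 := by positivity
  have hq := Real.quadratic_le_exp_of_nonneg hx
  have hpi : (3.14:ℝ) < Real.pi := Real.pi_gt_d2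
  have hu := abs_nonneg u
  have h1 : |u| * (1 + |u|) ^ 3 ≤ 8 * (1 + u ^ 4) := by
    have h2 : u ^ 4 = |u| ^ 4 := by rw [← abs_pow, abs_of_nonneg (by positivity)]
    rw [h2]
    have h3 : |u| * (1 + |u|) ^ 3 ≤ (1 + |u|) ^ 4 := by
      have : (1 + |u|) ^ 4 = (1 + |u|) * (1 + |u|) ^ 3 := by ring
      rw [this]
      exact mul_le_mul_of_nonneg_right (by linarith) (by positivity)
    have h4 : (1 + |u|) ^ 4 ≤ 8 * (1 + |u| ^ 4) := by
      have a1 : (1 + |u|) ^ 2 ≤ 2 * (1 + |u| ^ 2) := by nlinarith [sq_nonneg (|u| - 1)]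
      have a2 : (1 + |u| ^ 2) ^ 2 ≤ 2 * (1 + |u| ^ 4) := by nlinarith [sq_nonneg (|u| ^ 2 - 1)]
      have a3 : (1 + |u|) ^ 4 = ((1 + |u|) ^ 2) ^ 2 := by ring
      rw [a3]
      calc ((1 + |u|) ^ 2) ^ 2 ≤ (2 * (1 + |u| ^ 2)) ^ 2 := by gcongr
        _ = 4 * (1 + |u| ^ 2) ^ 2 := by ring
        _ ≤ _ := by linarith
    linarith
  have h5 : u ^ 4 ≤ 208 * Real.exp (Real.pi / 32 * u ^ 2) := by
    have : (Real.pi / 32 * u ^ 2) ^ 2 / 2 ≤ Real.exp (Real.pi / 32 * u ^ 2) := by linarith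
    have h6 : (Real.pi / 32 * u ^ 2) ^ 2 / 2 = Real.pi ^ 2 / 2048 * u ^ 4 := by ring
    have h7 : (9.85:ℝ) ≤ Real.pi ^ 2 := by nlinarith
    have h8 : 0 ≤ u ^ 4 := by positivity
    nlinarith
  have h9 : 1 ≤ Real.exp (Real.pi / 32 * u ^ 2) := Real.one_le_exp hx
  linarith

/-- the basic weighted integral -/
theorem weight_int (B s : ℝ) (hB : 1 ≤ B) (hs : 0 < s) (x y η t₀ t : ℝ) (ht : |t - t₀| ≤ s ^ 2) :
    Integrable (fun p : ℝ × ℝ => |W (B * s) (x - p.1) - W (B * s) (x - (y + 2 * η * (t - t₀)))| *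
      ‖cf s p.1 p.2 t (pk s y η t₀)‖) ∧
    ∫ p : ℝ × ℝ, |W (B * s) (x - p.1) - W (B * s) (x - (y + 2 * η * (t - t₀)))| *
      ‖cf s p.1 p.2 t (pk s y η t₀)‖ ≤ 80256 / B * W (B * s) (x - (y + 2 * η * (t - t₀))) := by
  have hpi := Real.pi_pos
  have hBs : 0 < B * s := by positivity
  set Y := y + 2 * η * (t - t₀) with hY
  have hWn := W_nonneg (B * s) (x - Y) hBs
  have hb : ∀ p : ℝ × ℝ, |W (B * s) (x - p.1) - W (B * s) (x - Y)| * ‖cf s p.1 p.2 t (pk s y η t₀)‖ ≤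
      (3 / B * 1672 * W (B * s) (x - Y)) * Real.exp (-(Real.pi / (32 * s ^ 2)) *
        ((p.1 - Y - 0 * (p.2 - η)) ^ 2 + (2 * s ^ 2) ^ 2 * (p.2 - η) ^ 2)) := by
    intro p
    have h1 := W_diff (B * s) (x - Y) (x - p.1) hBs
    have h2 := ov_prod s hs y η t₀ t p.1 p.2 ht
    rw [← hY] at h2
    set u := (p.1 - Y) / s with hu
    have h3 : |x - p.1 - (x - Y)| / (B * s) = |u| / B := by
      have : x - p.1 - (x - Y) = -(s * u) := by rw [hu]; field_simp; ring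
      rw [this, abs_neg, abs_mul, abs_of_pos hs]; field_simp
    rw [h3] at h1
    have hun := abs_nonneg u
    have h4 : 3 * (|u| / B) * (1 + |u| / B) ^ 3 ≤ 3 / B * (|u| * (1 + |u|) ^ 3) := by
      have : |u| / B ≤ |u| := div_le_self hun hB
      have h5 : (1 + |u| / B) ^ 3 ≤ (1 + |u|) ^ 3 := by gcongr
      calc 3 * (|u| / B) * (1 + |u| / B) ^ 3 ≤ 3 * (|u| / B) * (1 + |u|) ^ 3 := by gcongr
        _ = _ := by ring
    have h6 := poly_le_exp u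
    have h7 : |W (B * s) (x - p.1) - W (B * s) (x - Y)| ≤
        3 / B * (1672 * Real.exp (Real.pi / 32 * u ^ 2)) * W (B * s) (x - Y) := by
      refine h1.trans (mul_le_mul_of_nonneg_right (h4.trans ?_) hWn)
      exact mul_le_mul_of_nonneg_left h6 (by positivity)
    calc _ ≤ (3 / B * (1672 * Real.exp (Real.pi / 32 * u ^ 2)) * W (B * s) (x - Y)) *
          (Real.exp (-(Real.pi / 16) * u ^ 2) * Real.exp (-(Real.pi / 8) * (s * (p.2 - η)) ^ 2)) := by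
          gcongr
      _ = (3 / B * 1672 * W (B * s) (x - Y)) * (Real.exp (Real.pi / 32 * u ^ 2) *
          (Real.exp (-(Real.pi / 16) * u ^ 2) * Real.exp (-(Real.pi / 8) * (s * (p.2 - η)) ^ 2))) := by ring
      _ = _ := by
          rw [← Real.exp_add, ← Real.exp_add]
          congr 2
          rw [hu]
          field_simp
          ring
  have hg := gauss2 (Real.pi / (32 * s ^ 2)) (2 * s ^ 2) Y 0 η (by positivity) (by positivity)
  have hI : Integrable (fun p : ℝ × ℝ => |W (B * s) (x - p.1) - W (B * s) (x - Y)| *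
      ‖cf s p.1 p.2 t (pk s y η t₀)‖) := by
    refine (hg.1.const_mul (3 / B * 1672 * W (B * s) (x - Y))).mono' ?_
      (Filter.Eventually.of_forall fun p => ?_)
    · have h1 := continuous_W (B * s) hBs
      have h2 := continuous_cf (integrable_pk s y η t₀ hs) s t hs
      have h3 : Continuous (fun p : ℝ × ℝ => |W (B * s) (x - p.1) - W (B * s) (x - Y)| *
        ‖cf s p.1 p.2 t (pk s y η t₀)‖) := by fun_prop
      exact h3.aestronglyMeasurable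
    · rw [Real.norm_of_nonneg (by positivity)]
      exact hb p
  refine ⟨hI, ?_⟩
  calc _ ≤ ∫ p : ℝ × ℝ, (3 / B * 1672 * W (B * s) (x - Y)) * Real.exp (-(Real.pi / (32 * s ^ 2)) *
        ((p.1 - Y - 0 * (p.2 - η)) ^ 2 + (2 * s ^ 2) ^ 2 * (p.2 - η) ^ 2)) :=
        integral_mono hI (hg.1.const_mul _) hb
    _ = (3 / B * 1672 * W (B * s) (x - Y)) * (Real.pi / (Real.pi / (32 * s ^ 2) * (2 * s ^ 2))) := by
        rw [integral_const_mul, hg.2]
    _ = _ := by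
        field_simp
        ring

end Vale.Agent.P076.X
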